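import Vale.Agent.P011.H775.CubEx

/-!
**The chart of the unitary group and the two equations, on top of the cubic norm structure `Cub`.**
For `z` of reduced trace one with `2 z = 1 + g + s y` (`s ^ 2 = d`), `T (z w) = 0` for
`w = (x + s) (x - s)⁻¹` is the pair of equations `eC = 0`, `eQ = 0`.
-/

open Module

set_option linter.unusedSectionVars false
set_option linter.unusedVariables false

namespace Vale.Agent.P011.H948

open Vale.Agent.P011.H775

section defs

variable {K D : Type} [Field K] [Ring D] [Algebra K D] (C : Cub K D) (d : K) (g y : D)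

/-- The cubic form. -/
def eC (x0 : K) (x : D) : K := C.N x + d * x0 * C.T (y * C.adj x) + d * x0 ^ 2 * C.T (g * x)

/-- The quadratic form. -/
def eQ (x0 : K) (x : D) : K := C.T (g * C.adj x) + d * x0 * C.T (y * x) + d * x0 ^ 2

end defs

section chart

variable {K D : Type} [Field K] [Ring D] [Algebra K D] (C : Cub K D)

theorem adj_smul_one (c : K) : C.adj (c • (1 : D)) = c ^ 2 • (1 : D) := by
  rw [C.adj_smul, C.adj_one]

theorem N_smul_one (c : K) : C.N (c • (1 : D)) = c ^ 3 := by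
  rw [C.N_smul, C.N_one, mul_one]

theorem cr_one (x : D) : C.cr x 1 = C.T x • (1 : D) - x := by
  rw [Cub.cr, one_mul, mul_one, C.T_one]
  module

theorem cr_neg_right (x y : D) : C.cr x (-y) = -C.cr x y := by
  have := C.cr_smul_right (-1 : K) x y
  simpa using this

theorem cr_neg_left (x y : D) : C.cr (-x) y = -C.cr x y := by
  rw [C.cr_comm, cr_neg_right, C.cr_comm]

theorem cr_sub_right (x y y' : D) : C.cr x (y - y') = C.cr x y - C.cr x y' := by
  rw [sub_eq_add_neg, C.cr_add_right, cr_neg_right, ← sub_eq_add_neg]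

theorem cr_sub_left (x x' y : D) : C.cr (x - x') y = C.cr x y - C.cr x' y := by
  rw [C.cr_comm, cr_sub_right, C.cr_comm y, C.cr_comm y]

theorem adj_sub (x y : D) : C.adj (x - y) = C.adj x + C.adj y - C.cr x y := by
  rw [sub_eq_add_neg, C.adj_add, cr_neg_right, C.adj_neg, ← sub_eq_add_neg]

theorem N_sub (x y : D) :
    C.N (x - y) = C.N x - C.T (C.adj x * y) + C.T (x * C.adj y) - C.N y := by
  rw [sub_eq_add_neg, C.N_add, C.adj_neg, C.N_neg, mul_neg, map_neg]
  ring

theorem N_sub_smul_one (x : D) (c : K) :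
    C.N (x - c • (1 : D)) = C.N x - c * C.S x + c ^ 2 * C.T x - c ^ 3 := by
  rw [N_sub, adj_smul_one, N_smul_one, mul_smul_comm, mul_smul_comm, mul_one, mul_one,
    map_smul, map_smul, smul_eq_mul, smul_eq_mul, Cub.S]

theorem N_add_smul_one (x : D) (c : K) :
    C.N (x + c • (1 : D)) = C.N x + c * C.S x + c ^ 2 * C.T x + c ^ 3 := by
  rw [C.N_add, adj_smul_one, N_smul_one, mul_smul_comm, mul_smul_comm, mul_one, mul_one,
    map_smul, map_smul, smul_eq_mul, smul_eq_mul, Cub.S]

theorem adj_sub_smul_one (x : D) (c : K) :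
    C.adj (x - c • (1 : D)) = C.adj x - c • (C.T x • (1 : D) - x) + c ^ 2 • (1 : D) := by
  rw [adj_sub, C.cr_smul_right, cr_one, adj_smul_one]
  abel

/-- **The chart, homogeneous**: `T (z (x + x0 s) (x - x0 s)^#) = C + s Q` for `T z = 1`,
`2 z = 1 + g + s y`. -/
theorem chart {g y z x : D} {d s : K} (x0 : K) (hs : s ^ 2 = d) (hz : C.T z = 1)
    (hg : C.T g = -1) (hy : C.T y = 0) (h2 : (2 : K) • z = 1 + g + s • y) :
    C.T (z * ((x + (x0 * s) • (1 : D)) * C.adj (x - (x0 * s) • (1 : D)))) =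
      eC C d g y x0 x + x0 * s * eQ C d g y x0 x := by
  have h1 : (x + (x0 * s) • (1 : D)) * C.adj (x - (x0 * s) • (1 : D)) =
      C.N (x - (x0 * s) • (1 : D)) • (1 : D) +
        (2 * (x0 * s)) • C.adj (x - (x0 * s) • (1 : D)) := by
    rw [← C.mul_adj, ← smul_one_mul (2 * (x0 * s)), ← add_mul]
    congr 1
    module
  have h3 : C.T (z * ((x + (x0 * s) • (1 : D)) * C.adj (x - (x0 * s) • (1 : D)))) =
      C.N (x - (x0 * s) • (1 : D)) +
        x0 * s * C.T ((1 + g + s • y) * C.adj (x - (x0 * s) • (1 : D))) := by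
    rw [h1, mul_add, map_add, mul_smul_comm, mul_one, map_smul, hz, smul_eq_mul, mul_one,
      mul_smul_comm, map_smul, smul_eq_mul, ← h2, smul_mul_assoc, map_smul, smul_eq_mul]
    ring
  rw [h3, N_sub_smul_one, adj_sub_smul_one, eC, eQ, Cub.S]
  simp only [add_mul, mul_add, mul_sub, one_mul, mul_one, smul_mul_assoc, mul_smul_comm, map_add,
    map_sub, map_smul, smul_eq_mul, C.T_one, hg, hy]
  rw [← hs]
  ring

end chart

/-- The cubic norm structure is compatible with the involution. -/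
structure SCub {K D : Type} [Field K] [StarRing K] [Ring D] [StarRing D] [Algebra K D]
    (C : Cub K D) : Prop where
  smul : ∀ (c : K) (x : D), star (c • x) = star c • star x
  T : ∀ x, C.T (star x) = star (C.T x)
  S : ∀ x, C.S (star x) = star (C.S x)
  N : ∀ x, C.N (star x) = star (C.N x)

/-- Existence. -/
theorem sCub_of {K D : Type} [Field K] [StarRing K] [Ring D] [StarRing D] [Algebra K D]
    [FiniteDimensional K D] [Algebra.IsCentral K D] [IsSimpleRing D] (C : Cub K D)
    (hD : finrank K D = 3 ^ 2) (hsm : ∀ (c : K) (x : D), star (c • x) = star c • star x) :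
    SCub C := by
  have hss : ∀ c : K, star (algebraMap K D c) = algebraMap K D (star c) := by
    intro c
    rw [Algebra.algebraMap_eq_smul_one, hsm, star_one, Algebra.algebraMap_eq_smul_one]
  exact ⟨hsm, fun x => (C.star_coeff hD hss x).1, fun x => (C.star_coeff hD hss x).2.1,
    fun x => (C.star_coeff hD hss x).2.2⟩

namespace SCub

section ring

variable {K D : Type} [Field K] [StarRing K] [Ring D] [StarRing D] [Algebra K D] {C : Cub K D}
  (h : SCub C)

include h

theorem adj (x : D) : C.adj (star x) = star (C.adj x) := by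
  rw [C.adj_eq, C.adj_eq, star_add, star_sub, star_mul, h.smul, h.smul, star_one, h.T, h.S]

theorem cr (x y : D) : C.cr (star x) (star y) = star (C.cr x y) := by
  rw [Cub.cr, Cub.cr, star_add, star_sub, star_sub, star_add, star_mul, star_mul, h.smul, h.smul,
    h.smul, star_one, h.T, h.T, ← star_mul, h.T, star_mul, star_sub, star_mul', C.T_comm y x,
    add_comm (star x * star y)]

theorem T_symm {a : D} (ha : star a = a) : star (C.T a) = C.T a := by rw [← h.T, ha]

theorem S_symm {a : D} (ha : star a = a) : star (C.S a) = C.S a := by rw [← h.S, ha]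

theorem N_symm {a : D} (ha : star a = a) : star (C.N a) = C.N a := by rw [← h.N, ha]

theorem adj_symm {a : D} (ha : star a = a) : star (C.adj a) = C.adj a := by rw [← h.adj, ha]

theorem cr_symm {a b : D} (ha : star a = a) (hb : star b = b) : star (C.cr a b) = C.cr a b := by
  rw [← h.cr, ha, hb]

theorem T_mul_symm {a b : D} (ha : star a = a) (hb : star b = b) :
    star (C.T (a * b)) = C.T (a * b) := by
  rw [← h.T, star_mul, ha, hb, C.T_comm]

theorem smul_symm {a : D} {c : K} (hc : star c = c) (ha : star a = a) :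
    star (c • a) = c • a := by rw [h.smul, hc, ha]

/-- The congruence `b^* x b` of a symmetric element. -/
theorem congr_symm {a : D} (b : D) (ha : star a = a) : star (star b * a * b) = star b * a * b := by
  rw [star_mul, star_mul, star_star, ha, mul_assoc]

theorem eC_symm {g y x : D} {d x0 : K} (hd : star d = d) (hx0 : star x0 = x0) (hg : star g = g)
    (hy : star y = y) (hx : star x = x) : star (eC C d g y x0 x) = eC C d g y x0 x := by
  rw [eC, star_add, star_add, star_mul', star_mul', star_mul', star_mul', star_pow, hd, hx0,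
    h.N_symm hx, h.T_mul_symm hy (h.adj_symm hx), h.T_mul_symm hg hx]

theorem eQ_symm {g y x : D} {d x0 : K} (hd : star d = d) (hx0 : star x0 = x0) (hg : star g = g)
    (hy : star y = y) (hx : star x = x) : star (eQ C d g y x0 x) = eQ C d g y x0 x := by
  rw [eQ, star_add, star_add, star_mul', star_mul', star_mul', star_pow, hd, hx0,
    h.T_mul_symm hg (h.adj_symm hx), h.T_mul_symm hy hx]

/-- Symmetric and skew part: `2 z = 1 + g + s y`. -/
theorem exists_gy {s : K} (h20 : (2 : K) ≠ 0) (hs0 : s ≠ 0) (hstar : star s = -s) {z : D}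
    (hz : C.T z = 1) : ∃ g y : D, star g = g ∧ star y = y ∧ C.T g = -1 ∧ C.T y = 0 ∧
      (2 : K) • z = 1 + g + s • y := by
  have h2s : star (2 : K) = 2 := star_ofNat 2
  set m : D := (2 : K) • z - 1 with hm
  have hTm : C.T m = -1 := by
    rw [hm, map_sub, map_smul, hz, C.T_one, smul_eq_mul]
    norm_num
  have hTm' : C.T (star m) = -1 := by rw [h.T, hTm, star_neg, star_one]
  refine ⟨(2 : K)⁻¹ • (m + star m), (2 * s)⁻¹ • (m - star m), ?_, ?_, ?_, ?_, ?_⟩
  · rw [h.smul, star_inv₀, h2s, star_add, star_star, add_comm]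
  · rw [h.smul, star_inv₀, star_mul', h2s, hstar, star_sub, star_star, mul_neg, inv_neg, neg_smul,
      ← smul_neg, neg_sub]
  · rw [map_smul, map_add, hTm, hTm', smul_eq_mul, ← two_mul, ← mul_assoc, inv_mul_cancel₀ h20,
      one_mul]
  · rw [map_smul, map_sub, hTm, hTm', sub_self, smul_zero]
  · rw [smul_smul, mul_inv_rev, ← mul_assoc, mul_inv_cancel₀ hs0, one_mul, add_assoc,
      ← smul_add]
    have h3 : m + star m + (m - star m) = (2 : K) • m := by
      rw [two_smul]
      abel
    rw [h3, smul_smul, inv_mul_cancel₀ h20, one_smul, hm]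
    abel

end ring

section div

variable {K D : Type} [Field K] [StarRing K] [DivisionRing D] [StarRing D] [Algebra K D]
  {C : Cub K D} (h : SCub C)

include h

theorem sub_ne_zero_of_symm {s : K} (h20 : (2 : K) ≠ 0) (hs0 : s ≠ 0) (hstar : star s = -s)
    {x : D} (hx : star x = x) : x - s • (1 : D) ≠ 0 := by
  intro h0
  have h1 : x = s • (1 : D) := sub_eq_zero.1 h0
  have h2 : star x = -x := by rw [h1, h.smul, hstar, star_one, neg_smul]
  have h3 : x = 0 := by
    rw [hx] at h2
    have h4 : (2 : K) • x = 0 := by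
      rw [two_smul]
      nth_rewrite 2 [h2]
      exact add_neg_cancel x
    exact (smul_eq_zero.1 h4).resolve_left h20
  rw [h3] at h1
  exact hs0 ((smul_eq_zero.1 h1.symm).resolve_right one_ne_zero)

theorem add_ne_zero_of_symm {s : K} (h20 : (2 : K) ≠ 0) (hs0 : s ≠ 0) (hstar : star s = -s)
    {x : D} (hx : star x = x) : x + s • (1 : D) ≠ 0 := by
  have h3 := h.sub_ne_zero_of_symm h20 (neg_ne_zero.2 hs0) (by rw [star_neg, hstar]) hx
  rwa [neg_smul, sub_neg_eq_add] at h3

/-- The Cayley transform is unitary. -/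
theorem cay_unitary {s : K} (h20 : (2 : K) ≠ 0) (hs0 : s ≠ 0) (hstar : star s = -s) {x : D}
    (hx : star x = x) : ((x + s • (1 : D)) * (x - s • (1 : D))⁻¹) *
      star ((x + s • (1 : D)) * (x - s • (1 : D))⁻¹) = 1 := by
  have h1 := h.sub_ne_zero_of_symm h20 hs0 hstar hx
  have h2 := h.add_ne_zero_of_symm h20 hs0 hstar hx
  have h3 : star (x - s • (1 : D)) = x + s • (1 : D) := by
    rw [star_sub, hx, h.smul, hstar, star_one, neg_smul, sub_neg_eq_add]
  have h4 : star (x + s • (1 : D)) = x - s • (1 : D) := by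
    rw [star_add, hx, h.smul, hstar, star_one, neg_smul, ← sub_eq_add_neg]
  have h5 : Commute (x + s • (1 : D)) (x - s • (1 : D)) := by
    have h6 : Commute x (s • (1 : D)) := (Commute.one_right x).smul_right s
    exact ((Commute.refl x).sub_right h6).add_left ((h6.symm).sub_right (Commute.refl _))
  rw [star_mul, star_inv₀, h3, h4, mul_assoc, ← mul_assoc _ (x + s • (1 : D))⁻¹,
    ← mul_inv_rev, h5.eq, mul_inv_rev, mul_assoc, inv_mul_cancel₀ h1, mul_one,
    mul_inv_cancel₀ h2]

/-- **Solutions of the two equations (with `x0 ≠ 0`) give unitary elements `w` with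
`T (z w) = 0`.** -/
theorem T_mul_cay {g y z x : D} {d s x0 : K} (h20 : (2 : K) ≠ 0) (hs0 : s ≠ 0)
    (hstar : star s = -s) (hs : s ^ 2 = d) (hz : C.T z = 1) (hg1 : C.T g = -1) (hy1 : C.T y = 0)
    (h2 : (2 : K) • z = 1 + g + s • y) (hx : star x = x) (hx0 : star x0 = x0) (hx00 : x0 ≠ 0)
    (hC : eC C d g y x0 x = 0) (hQ : eQ C d g y x0 x = 0) :
    C.T (z * ((x + (x0 * s) • (1 : D)) * (x - (x0 * s) • (1 : D))⁻¹)) = 0 := by
  have h1 := h.sub_ne_zero_of_symm (s := x0 * s) h20 (mul_ne_zero hx00 hs0)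
    (by rw [star_mul', hx0, hstar, mul_neg]) hx
  have h3 := chart C x0 hs hz hg1 hy1 h2 (x := x)
  rw [hC, hQ, mul_zero, add_zero] at h3
  rw [C.inv_eq h1, mul_smul_comm, mul_smul_comm, map_smul, h3, smul_zero]

/-- The converse. -/
theorem of_T_mul_cay {g y z x : D} {d s x0 : K} (h20 : (2 : K) ≠ 0) (hs0 : s ≠ 0)
    (hstar : star s = -s) (hs : s ^ 2 = d) (hz : C.T z = 1) (hg1 : C.T g = -1) (hy1 : C.T y = 0)
    (h2 : (2 : K) • z = 1 + g + s • y) (hg : star g = g) (hy : star y = y) (hx : star x = x)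
    (hx0 : star x0 = x0) (hx00 : x0 ≠ 0)
    (h0 : C.T (z * ((x + (x0 * s) • (1 : D)) * (x - (x0 * s) • (1 : D))⁻¹)) = 0) :
    eC C d g y x0 x = 0 ∧ eQ C d g y x0 x = 0 := by
  have h1 := h.sub_ne_zero_of_symm (s := x0 * s) h20 (mul_ne_zero hx00 hs0)
    (by rw [star_mul', hx0, hstar, mul_neg]) hx
  have h3 := chart C x0 hs hz hg1 hy1 h2 (x := x)
  rw [C.inv_eq h1, mul_smul_comm, mul_smul_comm, map_smul, smul_eq_zero] at h0
  have h4 := h0.resolve_left (inv_ne_zero (C.N_ne_zero h1))
  rw [h4] at h3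
  have hd : star d = d := by rw [← hs, star_pow, hstar, neg_sq]
  have h5 := congrArg star h3
  rw [star_zero, star_add, star_mul', star_mul', hx0, hstar, h.eC_symm hd hx0 hg hy hx,
    h.eQ_symm hd hx0 hg hy hx] at h5
  have h6 : 2 * eC C d g y x0 x = 0 := by linear_combination -h3 - h5
  have h7 := (mul_eq_zero.1 h6).resolve_left h20
  rw [h7, zero_add] at h3
  exact ⟨h7, (mul_eq_zero.1 h3.symm).resolve_left (mul_ne_zero hx00 hs0)⟩

/-- The special centre: `x = w ^ 2`, `u = w⁻¹`. Then `(x - 1) u = w - w⁻¹ = 2 s f₀` with `f₀`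
symmetric and, if `T f₀ ≠ 0`, `z = f₀ / T f₀`, `g = 2 f₀ / T f₀ - 1`, `y = 0`. -/
theorem special {s : K} (h20 : (2 : K) ≠ 0) (hs0 : s ≠ 0) (hstar : star s = -s) {w : D}
    (hw : w * star w = 1) : ∃ f0 : D, star f0 = f0 ∧ w - w⁻¹ = (2 * s) • f0 ∧
      (C.T f0 ≠ 0 → ∃ g z : D, star g = g ∧ C.T g = -1 ∧ C.T z = 1 ∧
        g = (2 * (C.T f0)⁻¹) • f0 - 1 ∧ z = (C.T f0)⁻¹ • f0 ∧
        (2 : K) • z = 1 + g + s • (0 : D)) := by
  have h2s : star (2 : K) = 2 := star_ofNat 2
  have hw0 : w ≠ 0 := by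
    intro h0
    rw [h0, zero_mul] at hw
    exact zero_ne_one hw
  have hinv : w⁻¹ = star w := inv_eq_of_mul_eq_one_right hw
  have hf : star ((2 * s)⁻¹ • (w - w⁻¹)) = (2 * s)⁻¹ • (w - w⁻¹) := by
    rw [h.smul, star_inv₀, star_mul', h2s, hstar, hinv, star_sub, star_star, mul_neg, inv_neg,
      neg_smul, ← smul_neg, neg_sub]
  refine ⟨(2 * s)⁻¹ • (w - w⁻¹), hf, ?_, fun hT => ?_⟩
  · rw [smul_smul, mul_inv_cancel₀ (mul_ne_zero h20 hs0), one_smul]
  · set f0 := (2 * s)⁻¹ • (w - w⁻¹)
    have hTs : star (C.T f0) = C.T f0 := h.T_symm hf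
    refine ⟨(2 * (C.T f0)⁻¹) • f0 - 1, (C.T f0)⁻¹ • f0, ?_, ?_, ?_, rfl, rfl, ?_⟩
    · rw [star_sub, h.smul, star_mul', h2s, star_inv₀, hTs, hf, star_one]
    · rw [map_sub, map_smul, C.T_one, smul_eq_mul, mul_assoc, inv_mul_cancel₀ hT]
      norm_num
    · rw [map_smul, smul_eq_mul, inv_mul_cancel₀ hT]
    · rw [smul_zero, add_zero, smul_smul]
      abel

end div

end SCub

end Vale.Agent.P011.H948
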