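import Vale.Agent.P011.H948.ChartC

/-!
**Algebra of the stable invariance.** `x` special unitary, `w` unitary with `T ((x - 1) w) = 0`:
`x w` and `w` have the same reduced characteristic polynomial; parametrisation of these `w` from
one of them; the elements `h` with `x w h = h w`.
-/

open Module

set_option linter.unusedSectionVars false
set_option linter.unusedVariables false

namespace Vale.Agent.P011.H948

open Vale.Agent.P011.H775

namespace SCub

variable {K D : Type} [Field K] [StarRing K] [DivisionRing D] [StarRing D] [Algebra K D]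
  {C : Cub K D} (h : SCub C)

section same

include h

theorem ne_zero_of_unitary {w : D} (hw : w * star w = 1) : w ≠ 0 := by
  intro h0
  rw [h0, zero_mul] at hw
  exact zero_ne_one hw

theorem inv_eq_star {w : D} (hw : w * star w = 1) : w⁻¹ = star w := inv_eq_of_mul_eq_one_right hw

theorem star_mul_self {w : D} (hw : w * star w = 1) : star w * w = 1 := by
  rw [← h.inv_eq_star hw, inv_mul_cancel₀ (h.ne_zero_of_unitary hw)]

/-- `S w = N w · star (T w)` for `w` unitary. -/
theorem S_eq {w : D} (hw : w * star w = 1) : C.S w = C.N w * star (C.T w) := by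
  rw [Cub.S, C.adj_eq_inv (h.ne_zero_of_unitary hw), h.inv_eq_star hw, map_smul, h.T, smul_eq_mul]

/-- **`x w` and `w` have the same reduced characteristic polynomial.** -/
theorem same {x w : D} (hx : x * star x = 1) (hxN : C.N x = 1) (hw : w * star w = 1)
    (hT : C.T ((x - 1) * w) = 0) :
    C.T (x * w) = C.T w ∧ C.S (x * w) = C.S w ∧ C.N (x * w) = C.N w := by
  have h1 : C.T (x * w) = C.T w := by
    rw [sub_mul, one_mul, map_sub, sub_eq_zero] at hT
    exact hT
  have h2 : C.N (x * w) = C.N w := by rw [C.N_mul, hxN, one_mul]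
  have h3 : x * w * star (x * w) = 1 := by
    rw [star_mul, mul_assoc, ← mul_assoc w, hw, one_mul, hx]
  exact ⟨h1, by rw [h.S_eq h3, h.S_eq hw, h1, h2], h2⟩

end same

section param

include h

/-- `(a + κ^*) (a + κ)⁻¹` is unitary for `a` symmetric and `a + κ ≠ 0`. -/
theorem cay_gen {a : D} (ha : star a = a) {c : K} (hne : a + c • (1 : D) ≠ 0) :
    ((a + star c • (1 : D)) * (a + c • (1 : D))⁻¹) *
      star ((a + star c • (1 : D)) * (a + c • (1 : D))⁻¹) = 1 := by
  have h3 : star (a + c • (1 : D)) = a + star c • (1 : D) := by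
    rw [star_add, ha, h.smul, star_one]
  have h4 : star (a + star c • (1 : D)) = a + c • (1 : D) := by
    rw [star_add, ha, h.smul, star_one, star_star]
  have hne2 : a + star c • (1 : D) ≠ 0 := by
    rw [← h3]
    exact fun h0 => hne (star_eq_zero.1 h0)
  have h5 : Commute (a + star c • (1 : D)) (a + c • (1 : D)) := by
    have h6 : ∀ e : K, Commute a (e • (1 : D)) := fun e => (Commute.one_right a).smul_right e
    have h7 : Commute (star c • (1 : D)) (c • (1 : D)) :=
      ((Commute.one_right _).smul_right c)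
    exact ((Commute.refl a).add_right (h6 c)).add_left ((h6 (star c)).symm.add_right h7)
  rw [star_mul, star_inv₀, h3, h4, mul_assoc, ← mul_assoc _ (a + star c • (1 : D))⁻¹,
    ← mul_inv_rev, h5.eq, mul_inv_rev, mul_assoc, inv_mul_cancel₀ hne, mul_one,
    mul_inv_cancel₀ hne2]

omit h in
/-- `T (μ (a + κ)^#) = T (μ a^#) - κ T (μ a)` if `T μ = 0`. -/
theorem T_mul_adj_add {m a : D} (hm : C.T m = 0) (c : K) :
    C.T (m * C.adj (a + c • (1 : D))) = C.T (m * C.adj a) - c * C.T (m * a) := by
  rw [C.adj_add, C.cr_smul_right, cr_one, adj_smul_one]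
  simp only [mul_add, mul_sub, mul_smul_comm, mul_one, map_add, map_sub, map_smul, smul_eq_mul,
    hm]
  ring

/-- **Parametrisation of `X_x` from one point `u`.** -/
theorem param {x u a : D} (hu : u * star u = 1) (ha : star a = a)
    (hT : C.T ((x - 1) * u) = 0) {c : K} (hne : a + c • (1 : D) ≠ 0)
    (hc : C.T ((x - 1) * u * C.adj a) = c * C.T ((x - 1) * u * a)) :
    (u * ((a + star c • (1 : D)) * (a + c • (1 : D))⁻¹)) *
        star (u * ((a + star c • (1 : D)) * (a + c • (1 : D))⁻¹)) = 1 ∧
      C.T ((x - 1) * (u * ((a + star c • (1 : D)) * (a + c • (1 : D))⁻¹))) = 0 := by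
  have h1 := h.cay_gen ha hne
  refine ⟨?_, ?_⟩
  · rw [star_mul, mul_assoc, ← mul_assoc _ (star _) (star u), h1, one_mul, hu]
  · set m := (x - 1) * u with hm
    rw [← mul_assoc, ← hm, C.inv_eq hne, mul_smul_comm, mul_smul_comm, map_smul]
    have h2 : (a + star c • (1 : D)) * C.adj (a + c • (1 : D)) =
        C.N (a + c • (1 : D)) • (1 : D) + (star c - c) • C.adj (a + c • (1 : D)) := by
      rw [← C.mul_adj, ← smul_one_mul (star c - c), ← add_mul]
      congr 1
      module
    rw [h2, mul_add, mul_smul_comm, mul_smul_comm, mul_one, map_add, map_smul, map_smul, hT,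
      T_mul_adj_add hT, hc, sub_self, smul_zero, smul_zero, add_zero, smul_zero]

/-- **The converse**: every other unitary `w = u v` with `T ((x - 1) w) = 0` is obtained, with any
`κ` not fixed by `star`. -/
theorem param_inv {x u v : D} (hu : u * star u = 1) (hv : v * star v = 1) (hv1 : v ≠ 1)
    (hT : C.T ((x - 1) * u) = 0) (hw : C.T ((x - 1) * (u * v)) = 0) {c : K} (hc : star c ≠ c) :
    ∃ a : D, star a = a ∧ a + c • (1 : D) ≠ 0 ∧
      C.T ((x - 1) * u * C.adj a) = c * C.T ((x - 1) * u * a) ∧
      v = (a + star c • (1 : D)) * (a + c • (1 : D))⁻¹ := by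
  have hv0 := h.ne_zero_of_unitary hv
  have hsv : star v = v⁻¹ := (h.inv_eq_star hv).symm
  have hv10 : v - 1 ≠ 0 := sub_ne_zero.2 hv1
  set a := (v - 1)⁻¹ * (star c • (1 : D) - c • v) with ha
  have hcc : star c - c ≠ 0 := sub_ne_zero.2 hc
  have e1 : (v - 1) * a = star c • (1 : D) - c • v := by
    rw [ha, ← mul_assoc, mul_inv_cancel₀ hv10, one_mul]
  have e2 : (v - 1) * (a + c • (1 : D)) = (star c - c) • (1 : D) := by
    rw [mul_add, e1, mul_smul_comm, mul_one]
    module
  have e3 : (v - 1) * (a + star c • (1 : D)) = (star c - c) • v := by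
    rw [mul_add, e1, mul_smul_comm, mul_one]
    module
  have hne : a + c • (1 : D) ≠ 0 := by
    intro h0
    rw [h0, mul_zero] at e2
    exact hcc ((smul_eq_zero.1 e2.symm).resolve_right one_ne_zero)
  have hvc : Commute v a := by
    have h6 : Commute v ((v - 1)⁻¹) := ((Commute.refl v).sub_right (Commute.one_right v)).inv_right₀
    have h7 : Commute v (star c • (1 : D) - c • v) :=
      ((Commute.one_right v).smul_right _).sub_right ((Commute.refl v).smul_right _)
    exact h6.mul_right h7
  have hvc1 : Commute (v - 1) (a + c • (1 : D)) :=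
    (hvc.sub_left (Commute.one_left a)).add_right ((Commute.one_right _).smul_right _)
  have e4 : v * (a + c • (1 : D)) = a + star c • (1 : D) := by
    apply mul_left_cancel₀ hv10
    rw [e3, ← mul_assoc, ((Commute.refl v).sub_left (Commute.one_left v)).eq, mul_assoc, e2,
      mul_smul_comm, mul_one]
  have hva : v = (a + star c • (1 : D)) * (a + c • (1 : D))⁻¹ := by
    rw [← e4, mul_assoc, mul_inv_cancel₀ hne, mul_one]
  have hsa : star a = a := by
    -- `star` of `(v - 1) a = κ^* - κ v`
    have f1 := congrArg star e1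
    rw [star_mul, star_sub, star_one, hsv, star_sub, h.smul, h.smul, star_one, star_star,
      hsv] at f1
    have f2 : star a * (v⁻¹ - 1) * v = (c • (1 : D) - star c • v⁻¹) * v := by rw [f1]
    rw [mul_assoc, sub_mul, inv_mul_cancel₀ hv0, one_mul, sub_mul, smul_mul_assoc, smul_mul_assoc,
      one_mul, inv_mul_cancel₀ hv0] at f2
    have f3 : star a * (v - 1) = a * (v - 1) := by
      have f4 : a * (v - 1) = star c • (1 : D) - c • v := by
        rw [← (hvc.sub_left (Commute.one_left a)).eq, e1]
      rw [f4, ← neg_sub 1 v, mul_neg, f2]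
      abel
    exact mul_right_cancel₀ hv10 f3
  refine ⟨a, hsa, hne, ?_, hva⟩
  have h8 : C.T ((x - 1) * u * v) = 0 := by rw [mul_assoc]; exact hw
  set m := (x - 1) * u with hm
  rw [hva, C.inv_eq hne, mul_smul_comm, mul_smul_comm, map_smul] at h8
  have h9 := (smul_eq_zero.1 h8).resolve_left (inv_ne_zero (C.N_ne_zero hne))
  have h2 : (a + star c • (1 : D)) * C.adj (a + c • (1 : D)) =
      C.N (a + c • (1 : D)) • (1 : D) + (star c - c) • C.adj (a + c • (1 : D)) := by
    rw [← C.mul_adj, ← smul_one_mul (star c - c), ← add_mul]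
    congr 1
    module
  rw [h2, mul_add, mul_smul_comm, mul_smul_comm, mul_one, map_add, map_smul, map_smul, hT,
    smul_zero, zero_add, T_mul_adj_add hT] at h9
  exact sub_eq_zero.1 ((smul_eq_zero.1 h9).resolve_left hcc)

end param

end SCub

section conj

variable {K D : Type} [Field K] [DivisionRing D] [Algebra K D] (C : Cub K D)

/-- The element `h_r` with `X h_r = h_r w`. -/
def hr (X w r : D) : D := X * X * r + X * r * (w - C.T w • (1 : D)) + r * C.adj w

/-- `X h_r = h_r w` if `X` and `w` have the same reduced characteristic polynomial. -/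
theorem hr_conj {X w : D} (hT : C.T X = C.T w) (hS : C.S X = C.S w) (hN : C.N X = C.N w)
    (r : D) : X * hr C X w r = hr C X w r * w := by
  have px := C.cayley X
  rw [hT, hS, hN] at px
  have e1 : X * hr C X w r - hr C X w r * w =
      (X * X * X - C.T w • (X * X) + C.S w • X - C.N w • (1 : D)) * r +
      C.N w • r - r * (C.adj w * w) + X * r * (C.adj w - (w * w - C.T w • w + C.S w • (1 : D))) := by
    simp only [hr, mul_add, mul_sub, add_mul, sub_mul, mul_smul_comm, smul_mul_assoc, one_mul,
      mul_one, mul_assoc]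
    abel
  rw [px, zero_mul, zero_add, C.adj_mul, mul_smul_comm, mul_one, sub_self, zero_add, ← C.adj_eq,
    sub_self, mul_zero] at e1
  exact sub_eq_zero.1 e1

end conj

namespace SCub

section conj2

variable {K D : Type} [Field K] [StarRing K] [DivisionRing D] [StarRing D] [Algebra K D]
  {C : Cub K D} (h : SCub C)

include h

/-- `h^* h` commutes with `w`. -/
theorem comm_star_mul {X w g : D} (hX : X * star X = 1) (hw : w * star w = 1)
    (hg : X * g = g * w) : Commute (star g * g) w := by
  have hX0 := h.ne_zero_of_unitary hX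
  have hw0 := h.ne_zero_of_unitary hw
  have h1 := congrArg star hg
  rw [star_mul, star_mul, ← h.inv_eq_star hX, ← h.inv_eq_star hw] at h1
  -- `star g * X⁻¹ = w⁻¹ * star g`
  have h2 : w * star g = star g * X := by
    have h3 : w * (star g * X⁻¹) * X = w * (w⁻¹ * star g) * X := by rw [h1]
    rw [mul_assoc, mul_assoc, inv_mul_cancel₀ hX0, mul_one, ← mul_assoc w, mul_inv_cancel₀ hw0,
      one_mul] at h3
    exact h3
  change star g * g * w = w * (star g * g)
  rw [← mul_assoc w, h2, mul_assoc, ← hg, mul_assoc]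

/-- **Conjugacy in the unitary group.** -/
theorem conj_unitary {x w g e : D} (hx : x * star x = 1) (hw : w * star w = 1)
    (hg : x * w * g = g * w) (hg0 : g ≠ 0) (he : Commute e w) (hge : star g * g = star e * e) :
    (g * e⁻¹) * star (g * e⁻¹) = 1 ∧ x = (g * e⁻¹) * w * (g * e⁻¹)⁻¹ * w⁻¹ := by
  have hw0 := h.ne_zero_of_unitary hw
  have he0 : e ≠ 0 := by
    intro h0
    rw [h0, mul_zero] at hge
    exact (mul_ne_zero (fun h1 => hg0 (star_eq_zero.1 h1)) hg0) hge
  have hse0 : star e ≠ 0 := fun h1 => he0 (star_eq_zero.1 h1)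
  have h1 : star (g * e⁻¹) * (g * e⁻¹) = 1 := by
    rw [star_mul, star_inv₀, mul_assoc, ← mul_assoc (star g), hge, ← mul_assoc, ← mul_assoc,
      inv_mul_cancel₀ hse0, one_mul, mul_inv_cancel₀ he0]
  have hge0 : g * e⁻¹ ≠ 0 := mul_ne_zero hg0 (inv_ne_zero he0)
  have h2 : (g * e⁻¹)⁻¹ = star (g * e⁻¹) := inv_eq_of_mul_eq_one_left h1
  refine ⟨by rw [← h2, mul_inv_cancel₀ hge0], ?_⟩
  have he' : e⁻¹ * w = w * e⁻¹ := (he.inv_left₀).eq
  have h3 : g * e⁻¹ * w = x * w * (g * e⁻¹) := by
    rw [mul_assoc, he', ← mul_assoc, ← hg, mul_assoc]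
  rw [h3, mul_assoc _ (g * e⁻¹), mul_inv_cancel₀ hge0, mul_one, mul_assoc, mul_inv_cancel₀ hw0,
    mul_one]

end conj2

end SCub

end Vale.Agent.P011.H948
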