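import Vale.Agent.P011.H948.DatG
import Vale.Agent.P011.H305.SetF
import Vale.Agent.P011.Hey.H63.PlaceRes

/-!
**F1: the chart attached to a unitary element and an isotropic element, over global function
fields with `3 ≠ 0`.**
-/

open Module Polynomial

set_option linter.unusedSectionVars false
set_option linter.unusedVariables false

namespace Vale.Agent.P011.H948

open Vale.Agent.P011.H775 Vale.Agent.P011.H271 Vale.Agent.P011.H305

variable {k K D : Type} [Field k] [GFF k] [Field K] [StarRing K] [DivisionRing D] [StarRing D]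
  [Algebra k K] [Algebra k D] [Algebra K D] [IsScalarTower k K D]

/-- **F1, abstract `p`.** -/
theorem exists_dat_of_chartG {d : kˣ} {s : K} (hS : SetF k K D d s) (h3 : (3 : k) ≠ 0)
    (hdeg : finrank K D = 3 ^ 2) (C : Cub K D) {x u : D} (hu : u * star u = 1)
    (hT : C.T ((x - 1) * u) ≠ 0) :
    ∃ g y : D, star g = g ∧ star y = y ∧ C.T g = -1 ∧ C.T y = 0 ∧
      (2 : K) • ((C.T ((x - 1) * u))⁻¹ • ((x - 1) * u)) = 1 + g + s • y ∧
      ∀ p r : D, p ≠ 0 → star p = p → Commute g p → C.T (g * p) = 0 →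
        C.T (C.adj (p * g)) ≠ 0 → star r = r → (∀ c : k, r ≠ algebraMap k K c • p) →
        C.T (g * r) = 0 → C.T (g * p * p * C.adj r) = 0 →
        ∃ (F : Type) (_ : Field F) (_ : GFF F) (_ : Algebra k F) (_ : FiniteDimensional k F)
          (_ : Algebra.IsSeparable k F) (φ : F →ₐ[k] D) (σ : F) (_ : FiniteDimensional K D)
          (_ : Algebra.IsCentral K D) (M : Dat C φ),
          finrank k F = 3 ∧ φ σ = r * p⁻¹ ∧
          M.p = p ∧ M.g = g ∧ M.y = y ∧ M.δ = s ∧ M.d = (d : k) ∧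
          ∀ z : F × k, z ≠ 0 → M.Q z = 0 → ∀ e : F,
            Algebra.norm k e + Algebra.trace k F (e * M.A z) + M.G z = 0 →
            ∃ w : D, w * star w = 1 ∧ C.T ((x - 1) * w) = 0 := by
  have := hS.fin
  have := hS.cen
  obtain ⟨g, y, hg, hy, hTg, hTy, h2', hw⟩ := SCub.exists_dat_gen hS.sq d.ne_zero hS.star_s
    hS.fix hS.rank hS.star_smul hS.two_ne h3 hdeg C hu hT
  refine ⟨g, y, hg, hy, hTg, hTy, h2', ?_⟩
  intro p r e1 e2 e3 e4 e5 e6 e7 e8 e9
  obtain ⟨F, _, _, _, _, φ, σ, M, h⟩ := hw p r e1 e2 e3 e4 e5 e6 e7 e8 e9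
  exact ⟨F, inferInstance, Hey.H63.gff_of_finite (k := k), inferInstance, inferInstance,
    inferInstance, φ, σ, hS.fin, hS.cen, M, h⟩

/-- `r` orthogonal to `k(g)` is not a multiple of `p = 3 + g⁻¹`. -/
theorem ne_smul_pp {C : Cub K D} {g r : D} (h30 : (3 : K) ≠ 0) (hg0 : g ≠ 0) (hp : pp g ≠ 0)
    (hr0 : r ≠ 0) (h1 : C.T r = 0) (h2 : C.T (g * r) = 0) (h2' : C.T (g * g * r) = 0) (c : k) :
    r ≠ algebraMap k K c • pp g := by
  intro e1
  set p := pp g with hp_def
  have hc0 : algebraMap k K c ≠ 0 := by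
    intro h0
    rw [h0, zero_smul] at e1
    exact hr0 e1
  have f1 : C.T (r * 1) = 0 := by rw [mul_one, h1]
  have f2 : C.T (r * g) = 0 := by rw [C.T_comm, h2]
  have f3 : C.T (r * (g * g)) = 0 := by rw [C.T_comm, h2']
  have f4 : C.T (r * g⁻¹) = 0 := by
    rw [C.inv_eq hg0, mul_smul_comm, map_smul, C.adj_eq g, mul_add, mul_sub, mul_smul_comm,
      mul_smul_comm, map_add, map_sub, map_smul, map_smul, f1, f2, f3, smul_zero, smul_zero,
      sub_zero, add_zero, smul_zero]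
  have f5 : C.T (r * (g⁻¹ * g⁻¹)) = 0 := by
    have : g⁻¹ * g⁻¹ = (C.N g)⁻¹ • (g - C.T g • (1 : D) + C.S g • g⁻¹) := by
      have h5 : C.adj g * g⁻¹ = g - C.T g • (1 : D) + C.S g • g⁻¹ := by
        rw [C.adj_eq g, add_mul, sub_mul, smul_mul_assoc, smul_mul_assoc, one_mul, mul_assoc,
          mul_inv_cancel₀ hg0, mul_one]
      rw [← h5, ← smul_mul_assoc, ← C.inv_eq hg0]
    rw [this, mul_smul_comm, map_smul, mul_add, mul_sub, mul_smul_comm, mul_smul_comm, map_add,
      map_sub, map_smul, map_smul, f1, f2, f4, smul_zero, smul_zero, sub_zero, add_zero,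
      smul_zero]
  have h3' : p = (3 : K) • (1 : D) + g⁻¹ := by
    rw [hp_def, pp, ofNat_smul_eq_nsmul, nsmul_eq_mul, mul_one]
    rfl
  have f6 : C.T (r * p) = 0 := by
    rw [h3', mul_add, mul_smul_comm, map_add, map_smul, f1, f4, smul_zero, add_zero]
  have f7 : C.T (r * (p * p)) = 0 := by
    have : p * p = (9 : K) • (1 : D) + (6 : K) • g⁻¹ + g⁻¹ * g⁻¹ := by
      rw [h3', add_mul, mul_add, mul_add, smul_mul_assoc, smul_mul_assoc, mul_smul_comm,
        mul_smul_comm, one_mul, mul_one, one_mul]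
      module
    rw [this, mul_add, mul_add, mul_smul_comm, mul_smul_comm, map_add, map_add, map_smul,
      map_smul, f1, f4, f5, smul_zero, smul_zero, add_zero, add_zero]
  rw [e1, smul_mul_assoc, map_smul, smul_eq_mul] at f1 f6 f7
  have g1 := (mul_eq_zero.1 f1).resolve_left hc0
  have g6 := (mul_eq_zero.1 f6).resolve_left hc0
  have g7 := (mul_eq_zero.1 f7).resolve_left hc0
  have e7 := C.T_mul_adj p
  rw [mul_one] at g1
  rw [C.adj_eq, mul_add, mul_sub, mul_smul_comm, mul_smul_comm, mul_one, map_add, map_sub,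
    map_smul, map_smul, g1, g6, g7, smul_zero, smul_zero, sub_zero, add_zero] at e7
  exact (mul_ne_zero h30 (C.N_ne_zero hp)) e7.symm

/-- **F1, the twin of helper775's `exists_dat_of_chart`** (`p = 3 + g⁻¹`). -/
theorem exists_dat_of_chartF {d : kˣ} {s : K} (hS : SetF k K D d s) (h3 : (3 : k) ≠ 0)
    (hdeg : finrank K D = 3 ^ 2) (C : Cub K D) {x u : D} (hu : u * star u = 1)
    (hT : C.T ((x - 1) * u) ≠ 0) :
    ∃ g y : D, star g = g ∧ star y = y ∧ C.T g = -1 ∧ C.T y = 0 ∧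
      (2 : K) • ((C.T ((x - 1) * u))⁻¹ • ((x - 1) * u)) = 1 + g + s • y ∧
      ∀ r : D, (∀ c : K, g ≠ c • (1 : D)) → 3 * C.S g ≠ 1 → star r = r → r ≠ 0 → C.T r = 0 →
        C.T (g * r) = 0 → C.T (g * g * r) = 0 → C.T (g * pp g * pp g * C.adj r) = 0 →
        ∃ (F : Type) (_ : Field F) (_ : GFF F) (_ : Algebra k F) (_ : FiniteDimensional k F)
          (_ : Algebra.IsSeparable k F) (φ : F →ₐ[k] D) (σ : F) (_ : FiniteDimensional K D)
          (_ : Algebra.IsCentral K D) (M : Dat C φ),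
          finrank k F = 3 ∧ φ σ = r * (pp g)⁻¹ ∧
          M.p = pp g ∧ M.g = g ∧ M.y = y ∧ M.δ = s ∧ M.d = (d : k) ∧
          ∀ z : F × k, z ≠ 0 → M.Q z = 0 → ∀ e : F,
            Algebra.norm k e + Algebra.trace k F (e * M.A z) + M.G z = 0 →
            ∃ w : D, w * star w = 1 ∧ C.T ((x - 1) * w) = 0 := by
  have h30 : (3 : K) ≠ 0 := by
    have h := (_root_.map_ne_zero (algebraMap k K)).2 h3
    rwa [map_ofNat] at h
  have := hS.fin
  have := hS.cen
  have hC := sCub_of C hdeg hS.star_smul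
  obtain ⟨g, y, hg, hy, hTg, hTy, h2', hw⟩ := exists_dat_of_chartG hS h3 hdeg C hu hT
  refine ⟨g, y, hg, hy, hTg, hTy, h2', ?_⟩
  intro r hgc hSg hr hr0 e1 e2 e3 e4
  have hg0 : g ≠ 0 := fun h0 => hgc 0 (by rw [h0, zero_smul])
  have hp0 : pp g ≠ 0 := hC.pp_ne_zero h30 hgc
  have hne : C.T (C.adj (pp g * g)) ≠ 0 := by
    have h3D : (3 : D) = (3 : K) • (1 : D) := by
      rw [ofNat_smul_eq_nsmul, nsmul_eq_mul, mul_one]
      rfl
    have e : pp g * g = (3 : K) • g + 1 := by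
      rw [pp, add_mul, inv_mul_cancel₀ hg0, h3D, smul_mul_assoc, one_mul]
    have e' : C.T (C.adj (pp g * g)) = 9 * C.S g - 3 := by
      rw [e, C.adj_add, C.adj_smul, C.adj_one, map_add, map_add, map_smul, C.T_one, C.T_cr,
        map_smul, mul_one, map_smul, hTg, C.T_one, smul_eq_mul, smul_eq_mul, Cub.S]
      ring
    rw [e']
    intro h0
    apply hSg
    have h5 : (3 : K) * (3 * C.S g - 1) = 0 := by linear_combination h0
    exact sub_eq_zero.1 ((mul_eq_zero.1 h5).resolve_left h30)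
  exact hw (pp g) r hp0 (hC.pp_symm hg) pp_comm (T_mul_pp C hg0 hTg) hne hr
    (ne_smul_pp h30 hg0 hp0 hr0 e1 e2 e3) e2 e4

end Vale.Agent.P011.H948
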