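import Vale.Agent.P011.H948.Eta

/-!
**From a solution of the Skolem equation to a unitary `w` with `T ((x - 1) w) = 0`**
(one-sided congruence `m = p η`).
-/

open Module

set_option linter.unusedSectionVars false
set_option linter.unusedVariables false

namespace Vale.Agent.P011.H948

open Vale.Agent.P011.H775

section div

variable {K D : Type} [Field K] [DivisionRing D] [Algebra K D] (C : Cub K D)

/-- The Skolem form for the one-sided congruence. -/
theorem zero_of_skolem (d : K) {g y p r f : D} (hp : p ≠ 0) (hTy : C.T y = 0) (x0 : K)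
    (h1 : C.T (p * g * C.adj f) = 0)
    (h2 : C.T ((C.cr (p * g) r + (C.N p * d * x0) • (jj C g y * p⁻¹)) * f) = 0)
    (h3 : C.T (p * g * C.adj r) + C.N p * d * x0 * C.T (jj C g y * p⁻¹ * r) +
      C.N p * d * q0 C d g y * x0 ^ 2 = 0)
    (h4 : C.T (C.adj f * r) = 0)
    (h5 : C.N f + C.T (f * (C.adj r + (C.N p * d * x0 ^ 2) • (Gam C d g y * p⁻¹))) +
      (C.N r + C.N p * d * x0 ^ 2 * C.T (Gam C d g y * p⁻¹ * r) +
        C.N p * kap0 C d g y * x0 ^ 3) = 0) :
    C.Qf d g y x0 (p⁻¹ * (f + r) - (d * x0) • y) = 0 ∧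
      C.Cf d g y x0 (p⁻¹ * (f + r) - (d * x0) • y) = 0 := by
  have h := C.skolem_form d (b := 1) (b' := p) one_ne_zero hp g y r f x0
    (n := C.N p) (h := p * g) (e' := jj C g y * p⁻¹) (G' := Gam C d g y * p⁻¹)
    (by rw [C.N_one, one_mul]) (by rw [mul_one]) (by rw [inv_one, one_mul, jj])
    (by rw [inv_one, one_mul, Gam]) h1 h2
    (by
      rw [q0_eq C d g y hTy]
      linear_combination h3) h4
    (by
      rw [kap0] at h5
      linear_combination h5)
  rwa [inv_one, mul_one] at h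

end div

namespace SCub

variable {K D : Type} [Field K] [StarRing K] [DivisionRing D] [StarRing D] [Algebra K D]
  {C : Cub K D} (h : SCub C)

include h

/-- `p⁻¹ m` is symmetric for `m` in `p Sym`. -/
theorem inv_mul_symm {p m : D} (hp : p ≠ 0) (hps : star p = p) (hm : p * star m = m * p) :
    star (p⁻¹ * m) = p⁻¹ * m := by
  rw [star_mul, star_inv₀, hps]
  apply mul_left_cancel₀ hp
  rw [← mul_assoc, hm, mul_assoc, mul_inv_cancel₀ hp, mul_one, ← mul_assoc, mul_inv_cancel₀ hp,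
    one_mul]

/-- **The point of `X_x` from a solution of the Skolem equation.** -/
theorem exists_w_of_skolem {s d : K} (h20 : (2 : K) ≠ 0) (hs0 : s ≠ 0) (hstar : star s = -s)
    (hs : s ^ 2 = d) {x u : D} (hu : u * star u = 1) (hT : C.T ((x - 1) * u) ≠ 0) :
    ∃ g y : D, star g = g ∧ star y = y ∧ C.T g = -1 ∧ C.T y = 0 ∧
      (2 : K) • ((C.T ((x - 1) * u))⁻¹ • ((x - 1) * u)) = 1 + g + s • y ∧
      ∀ (x0 : K) (p r f : D), star x0 = x0 → p ≠ 0 → star p = p → p * star r = r * p →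
        p * star f = f * p → (x0 ≠ 0 ∨ f + r ≠ 0) →
        C.T (p * g * C.adj f) = 0 →
        C.T ((C.cr (p * g) r + (C.N p * d * x0) • (jj C g y * p⁻¹)) * f) = 0 →
        C.T (p * g * C.adj r) + C.N p * d * x0 * C.T (jj C g y * p⁻¹ * r) +
          C.N p * d * q0 C d g y * x0 ^ 2 = 0 →
        C.T (C.adj f * r) = 0 →
        C.N f + C.T (f * (C.adj r + (C.N p * d * x0 ^ 2) • (Gam C d g y * p⁻¹))) +
          (C.N r + C.N p * d * x0 ^ 2 * C.T (Gam C d g y * p⁻¹ * r) +
            C.N p * kap0 C d g y * x0 ^ 3) = 0 →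
        ∃ w : D, w * star w = 1 ∧ C.T ((x - 1) * w) = 0 := by
  obtain ⟨g, y, hg, hy, hTg, hTy, h2, hw⟩ := h.exists_chart h20 hs0 hstar hs hu hT
  refine ⟨g, y, hg, hy, hTg, hTy, h2, ?_⟩
  intro x0 p r f hx0 hp hps hr hf hne e1 e2 e3 e4 e5
  obtain ⟨hQ, hC⟩ := zero_of_skolem C d hp hTy x0 e1 e2 e3 e4 e5
  have hd : star d = d := by rw [← hs, star_pow, hstar, neg_sq]
  refine hw x0 (p⁻¹ * (f + r) - (d * x0) • y) hx0 ?_ ?_ hC hQ
  · rw [star_sub, h.smul, star_mul', hd, hx0, hy, h.inv_mul_symm hp hps]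
    rw [star_add, mul_add, hf, hr, add_mul]
  · rcases hne with h0 | h0
    · exact Or.inl h0
    · by_cases h1 : x0 = 0
      · right
        rw [h1, mul_zero, zero_smul, sub_zero]
        exact mul_ne_zero (inv_ne_zero hp) h0
      · exact Or.inl h1

end SCub

end Vale.Agent.P011.H948
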