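import Vale.Agent.P011.H948.R3Sym
import Vale.Agent.P011.Two2.Swap

/-!
Theorem S without places: the exchange relation in rank two, from the two steps of the path.
-/

open Module Matrix

set_option linter.unusedSectionVars false

namespace Vale.Agent.P011.H948.R3

open Vale.Agent.P011S
open Vale.Agent.P011.Three (psi)
open Vale.Agent.P011.Two2 (ND b₀ bb mm star_bb star_mm star_b₀ path swap)

/-- **The two steps of the path**: the output of step a and step b. -/
def StepAB (D : Type) [DivisionRing D] [StarRing D] : Prop :=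
  ∀ b m β r₀ r₀' : D, star b = b → star m = m → star β = β → star r₀ = r₀ → star r₀' = r₀' →
    b ≠ 0 → m ≠ 0 → β ≠ 0 → r₀ ≠ 0 → r₀' ≠ 0 →
    ∃ t p w c : D, t ≠ 0 ∧ p ≠ 0 ∧ c ≠ 0 ∧ b + t * r₀ * star t = p * r₀' * star p ∧
      w + star w = t * r₀ * star t ∧
      m + star w * (t * r₀ * star t)⁻¹ * w = c * β * star c

section main

variable {D V A : Type} [DivisionRing D] [StarRing D] [AddCommGroup V] [Module D V]
  [CommGroup A] {H : AForm D V} (χ : H.isom →* A)

/-- A vector of a space of dimension at least two has a nonzero orthogonal vector. -/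
theorem exists_perp (H : AForm D V) [Module.Finite D V] (hV : 2 ≤ finrank D V) (x : V) :
    ∃ y : V, y ≠ 0 ∧ H.h x y = 0 := by
  let L : V →ₗ[D] D :=
    { toFun := fun y => H.h y x
      map_add' := fun y z => H.add_left y z x
      map_smul' := fun c y => H.smul_left c y x }
  have h1 : LinearMap.ker L ≠ ⊥ := by
    intro h0
    have h2 := LinearMap.finrank_le_finrank_of_injective (LinearMap.ker_eq_bot.mp h0)
    rw [finrank_self] at h2
    omega
  obtain ⟨y, hy, hy0⟩ := (Submodule.ne_bot_iff _).mp h1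
  exact ⟨y, hy0, H.orth_symm (show H.h y x = 0 from hy)⟩

/-- Theorem S, first form. -/
theorem thmS_first (h20 : (2 : D) ≠ 0) (hAB : StepAB D)
    (hlen : ∀ a : D, star a = a → a ≠ 0 → ∃ y : V, H.h y y = a)
    (hperp : ∀ x : V, ∃ y : V, y ≠ 0 ∧ H.h x y = 0) {z z₂ r : D} (hnd : ND z z₂ r) {g : D}
    (hg0 : g ≠ 0) (hg : star r * z₂ + star (star r * z₂) = g * (z + star z) * star g) :
    psi H χ z * psi H χ z₂ = psi H χ (z * r) * psi H χ (star r * z₂) := by
  have hsy : ∀ x : D, star (x + star x) = x + star x := fun x => by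
    rw [star_add, star_star, add_comm]
  obtain ⟨x, hx⟩ := hlen _ (hsy z) hnd.1
  obtain ⟨x', hx'⟩ := hlen _ (hsy (z * r)) hnd.2.1
  obtain ⟨y, hy0, hxy⟩ := hperp x
  obtain ⟨y', hy'0, hxy'⟩ := hperp x'
  obtain ⟨r₀, hr₀⟩ : ∃ r₀, r₀ = H.h y y := ⟨_, rfl⟩
  obtain ⟨r₀', hr₀'⟩ : ∃ r₀', r₀' = H.h y' y' := ⟨_, rfl⟩
  have hr₀s : star r₀ = r₀ := by rw [hr₀]; exact H.star_h y y
  have hr₀s' : star r₀' = r₀' := by rw [hr₀']; exact H.star_h y' y'
  have hr₀0 : r₀ ≠ 0 := by rw [hr₀]; exact fun h => hy0 (H.anis' y h)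
  have hr₀0' : r₀' ≠ 0 := by rw [hr₀']; exact fun h => hy'0 (H.anis' y' h)
  obtain ⟨t, p, w, c, ht0, hp0, hc0, htp, hw, hwc⟩ := hAB (bb z z₂ r) (mm z z₂ r) (b₀ z z₂ r)
    r₀ r₀' star_bb star_mm star_b₀ hr₀s hr₀s' hnd.bb0 hnd.mm0 hnd.2.2.2.2.2 hr₀0 hr₀0'
  have hq0 : t * r₀ * star t ≠ 0 := mul_ne_zero (mul_ne_zero ht0 hr₀0) (star_ne_zero.mpr ht0)
  refine path (H := H) (χ := χ) h20 (w := w) (c := c) (x := x) (y := t • y)
    (x' := x') (y' := p • y') hnd ?_ hx ?_ ?_ hx' ?_ ?_ hg0 hg hc0 ?_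
  · rw [hw]; exact hq0
  · rw [H.smul_left, H.smul_right, hw, ← hr₀, ← mul_assoc]
  · rw [H.smul_right, hxy, zero_mul]
  · rw [H.smul_left, H.smul_right, hw, htp, ← hr₀', ← mul_assoc]
  · rw [H.smul_right, hxy', zero_mul]
  · rw [hw]
    exact hwc

/-- **Theorem S.** -/
theorem relE_of_steps (h20 : (2 : D) ≠ 0) (hAB : StepAB D)
    (hlen : ∀ a : D, star a = a → a ≠ 0 → ∃ y : V, H.h y y = a)
    (hperp : ∀ x : V, ∃ y : V, y ≠ 0 ∧ H.h x y = 0) : RelE (psi H χ) := by
  intro z z₂ r h1 h2 h3 h4 h5 h6 h7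
  have hnd : ND z z₂ r := ⟨h1, h2, h3, h4, h5, h6⟩
  rcases h7 with ⟨g, hg0, hg⟩ | ⟨g, hg0, hg⟩
  · exact thmS_first χ h20 hAB hlen hperp hnd hg0 hg
  · rcases eq_or_ne z₂ (z * r) with rfl | hne
    · have h4 : psi H χ (star r * (z * r)) = psi H χ z := by
        have h5 := psi_conj' χ z (star_ne_zero.mpr hnd.r0)
        rwa [star_star, mul_assoc] at h5
      rw [h4, mul_comm]
    · obtain ⟨Z, Q, u, C, G, hu0, hC0, hG0, hZ, hZQ, hC, hND, hZs, hb, hG⟩ := swap hnd hne hg0 hg
      have h4 := thmS_first χ h20 hAB hlen hperp hND hG0 hG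
      have h5 : psi H χ (star r * z₂) = psi H χ (z₂ * r⁻¹) := by
        have h6 := psi_conj' χ (z₂ * r⁻¹) (star_ne_zero.mpr hnd.r0)
        rwa [star_star, mul_assoc, mul_assoc, inv_mul_cancel₀ hnd.r0, mul_one] at h6
      rw [hZQ, hC, hZ, psi_conj' _ _ hu0, psi_conj' _ _ hC0, ← h5] at h4
      exact h4.symm

end main

section all

variable {k K D Ω : Type} [Field k] [Infinite k] [Field K] [StarRing K] [DivisionRing D]
  [StarRing D] [Algebra k K] [Algebra k D] [Algebra K D] [IsScalarTower k K D]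
  [FiniteDimensional k D] [Field Ω] [Algebra K Ω] {n : ℕ}

/-- **R3.** The classes of quasi-reflections extend to a homomorphism, for every character of the
isometry group of an anisotropic hermitian form of rank at least two, given the two steps of the
path and the universality of the form. -/
theorem hasF0 (hk : ∀ c : k, star (algebraMap k K c) = algebraMap k K c)
    (hss : ∀ c : K, star (algebraMap K D c) = algebraMap K D (star c)) (h2 : (2 : k) ≠ 0)
    (hK : ∃ c : K, star c ≠ c) (hn : 0 < n) (f : D →ₐ[K] Matrix (Fin n) (Fin n) Ω)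
    {V A : Type} [AddCommGroup V] [Module D V] [Module.Finite D V] [CommGroup A] {H : AForm D V}
    (χ : H.isom →* A) (hV : 2 ≤ finrank D V) (hAB : StepAB D)
    (hlen : ∀ a : D, star a = a → a ≠ 0 → ∃ y : V, H.h y y = a) : HasF0 χ := by
  have h2K : (2 : K) ≠ 0 := by
    have h := (_root_.map_ne_zero (algebraMap k K)).2 h2
    rwa [map_ofNat] at h
  have h20 : (2 : D) ≠ 0 := by
    have h := (_root_.map_ne_zero (algebraMap K D)).2 h2K
    rwa [map_ofNat] at h
  exact hasF0_of_relE hk hss h2 hK hn f χ hlen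
    (relE_of_steps χ h20 hAB hlen fun x => exists_perp H hV x)

end all

end Vale.Agent.P011.H948.R3
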