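import Vale.Agent.P011.H948.StepBF
import Vale.Agent.P011.H948.R3S
import Vale.Agent.P011.H167.StAF

/-!
The two steps of the path over a global function field.
-/

open Module Matrix Polynomial

set_option linter.unusedSectionVars false

namespace Vale.Agent.P011.H948.SB

open Vale.Agent.P011.H738 Vale.Agent.P011.H271 Vale.Agent.P011.H63.FB Vale.Agent.P011.H305
open Vale.Agent.P011.Arith (NF)
open Vale.Agent.P011.H279.RB (CtrlF exists_ctrlF)

variable {k K D : Type} [Field k] [Field K] [StarRing K]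
    [DivisionRing D] [StarRing D] [Algebra k K] [Algebra k D] [Algebra K D] [IsScalarTower k K D]
    {d : kˣ} {s : K} {n : ℕ}

/-- The class of the reduced norm of a congruent symmetric element. -/
theorem cls_conj (hS : SetF k K D d s) (hdeg : finrank K D = n ^ 2) (hn : 0 < n)
    {Ω : Type} [Field Ω] [Algebra K Ω] (f : D →ₐ[K] Matrix (Fin n) (Fin n) Ω) {r t : D}
    {ν ν' : kˣ} (hν : (f r).det = algebraMap K Ω (algebraMap k K ν))
    (hν' : (f (t * r * star t)).det = algebraMap K Ω (algebraMap k K ν')) :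
    ν' * ν ∈ NF d := by
  have := hS.fin
  have := hS.cen
  obtain ⟨x, hx⟩ := H268.exists_nrd hn hdeg f t
  have hx' := H268.nrd_star hn hdeg (star_algK hS) f t hx
  obtain ⟨a, b, rfl⟩ := hS.span' x
  have h1 : (algebraMap k K ν' : K) = algebraMap k K ν *
      ((algebraMap k K a + algebraMap k K b * s) *
        star (algebraMap k K a + algebraMap k K b * s)) := by
    apply (algebraMap K Ω).injective
    rw [← hν', map_mul, map_mul, Matrix.det_mul, Matrix.det_mul, hν, hx, hx', map_mul, map_mul]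
    ring
  have hst : ∀ a : k, star (algebraMap k K a) = algebraMap k K a := fun a =>
    (hS.fix _).mpr ⟨a, rfl⟩
  have h2 : (ν' : k) = ν * (a ^ 2 - d * b ^ 2) := by
    apply (algebraMap k K).injective
    rw [h1, star_add, star_mul', hst, hst, hS.star_s, map_mul, map_sub, map_mul, map_pow, map_pow,
      ← hS.sq]
    ring
  refine ⟨(ν : k) * a, ν * b, ?_⟩
  rw [Units.val_mul, h2]
  ring

/-- **The two steps of the path**, over every global function field of characteristic not two and
for every degree at least two. -/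
theorem stepABF (hk : IsGlobalFunctionField k) (hS : SetF k K D d s) (hn : 2 ≤ n)
    (hdeg : finrank K D = n ^ 2) : R3.StepAB D := by
  intro b m β r₀ r₀' hb hm hβ hr hr' hb0 hm0 hβ0 hr0 hr0'
  have : GFF k := gff_of_isGlobal hk
  have := hS.fin
  have := hS.cen
  have hn0 : 0 < n := by omega
  have h2 : (2 : k) ≠ 0 := hS.two_ne
  obtain ⟨f⟩ := Vale.Agent.P011S.exists_split (K := K) (D := D) hdeg (AlgebraicClosure K)
  obtain ⟨νr, hνr⟩ := H167.Lf.exists_nrd_unit hS hdeg f hr hr0
  obtain ⟨νb, hνb⟩ := H167.Lf.exists_nrd_unit hS hdeg f hβ hβ0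
  obtain ⟨V, hV⟩ := exists_ctrlF h2 hS.ns (νr * νb)
  obtain ⟨t, p, ht0, hp0, htp, hnice⟩ := H167.stepAF hk hS hn hdeg hb hm hr hr' hb0 hm0 hr0 hr0'
    hV.fin hV.nonsplit hV.nonempty
  have hq : star (t * r₀ * star t) = t * r₀ * star t := by
    rw [star_mul, star_mul, star_star, hr, mul_assoc]
  have hq0 : t * r₀ * star t ≠ 0 := mul_ne_zero (mul_ne_zero ht0 hr0) (star_ne_zero.mpr ht0)
  obtain ⟨νq, hνq⟩ := H167.Lf.exists_nrd_unit hS hdeg f hq hq0
  obtain ⟨w, c, hc0, hw, hwc⟩ := stepBF hS hn hdeg f hm hq hβ hm0 hq0 hβ0 hνq hνb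
    (a := νr * νb) (by
      have h1 : νq * νb * (νr * νb) = (νq * νr) * νb ^ 2 := by
        rw [pow_two]
        ac_rfl
      rw [h1]
      exact mul_mem (cls_conj hS hdeg hn0 f hνr hνq) ⟨(νb : k), 0, by simp⟩) hV hnice
  exact ⟨t, p, w, c, ht0, hp0, hc0, htp, hw, hwc⟩

end Vale.Agent.P011.H948.SB
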