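import Vale.Agent.P011.H948.ChartC
import Vale.Agent.P011.H775.Skol
import Mathlib.Algebra.Polynomial.SpecificDegree
import Mathlib.RingTheory.AdjoinRoot
import Mathlib.RingTheory.PowerBasis

/-!
**The letters of the Skolem form, the bridge from the isotropic element `r` to the cubic field
`E = k[r p⁻¹]`, and the glue: a common zero of the two forms gives a unitary `w` with
`T ((x - 1) w) = 0`.**
-/

open Module

set_option linter.unusedSectionVars false
set_option linter.unusedVariables false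

namespace Vale.Agent.P011.H948

open Vale.Agent.P011.H775

section letters

variable {K D : Type} [Field K] [Ring D] [Algebra K D] (C : Cub K D) (d : K) (g y : D)

/-- `Γ = g - d y^#`. -/
def Gam : D := g - d • C.adj y

/-- `j = y - g × y`. -/
def jj : D := y - C.cr g y

/-- `q₀ = 1 + d T ((g + 2) y^#)`. -/
def q0 : K := 1 + d * (C.T (g * C.adj y) + 2 * C.T (C.adj y))

/-- `κ₀ = 2 d ^ 3 N y - d ^ 2 T (g y)`. -/
def kap0 : K := 2 * d ^ 3 * C.N y - d ^ 2 * C.T (g * y)

theorem eC_eq (x0 : K) (x : D) : eC C d g y x0 x = C.Cf d g y x0 x := rfl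

theorem eQ_eq (x0 : K) (x : D) : eQ C d g y x0 x = C.Qf d g y x0 x := rfl

theorem T_sq (x : D) : C.T (x * x) = C.T x * C.T x - 2 * C.T (C.adj x) := by
  have h := C.T_cr x x
  rw [C.cr_self, map_smul, smul_eq_mul] at h
  linear_combination h

theorem q0_eq (hy : C.T y = 0) :
    d ^ 2 * C.T (g * C.adj y) - d ^ 2 * C.T (y * y) + d = d * q0 C d g y := by
  rw [T_sq, hy, q0]
  ring

theorem Cf_eta (x0 : K) (m : D) : C.Cf d g y x0 (m - (d * x0) • y) =
    C.N m + d * x0 ^ 2 * C.T (Gam C d g y * m) + kap0 C d g y * x0 ^ 3 := by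
  rw [C.Cf_mu, Gam, kap0]
  ring

theorem Qf_eta (hy : C.T y = 0) (x0 : K) (m : D) : C.Qf d g y x0 (m - (d * x0) • y) =
    C.T (g * C.adj m) + d * x0 * C.T (jj C g y * m) + d * q0 C d g y * x0 ^ 2 := by
  rw [C.Qf_mu, q0_eq C d g y hy, jj]
  ring

end letters

section ident

variable {K D : Type} [Field K] [Ring D] [Algebra K D] (C : Cub K D)

/-- `x (x × y) + y x^# = T (x^# y)`. -/
theorem mul_cr_add (h20 : (2 : K) ≠ 0) (x y : D) :
    x * C.cr x y + y * C.adj x = C.T (C.adj x * y) • (1 : D) := by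
  have e1 := C.mul_adj (x + y)
  have e2 := C.mul_adj (x - y)
  rw [C.adj_add, C.N_add] at e1
  rw [adj_sub, N_sub] at e2
  have ey := C.mul_adj y
  have h1 : (x + y) * (C.adj x + C.adj y + C.cr x y) - (x - y) * (C.adj x + C.adj y - C.cr x y) =
      (2 : K) • (x * C.cr x y + y * C.adj x) + (2 : K) • (y * C.adj y) := by
    rw [two_smul, two_smul]
    noncomm_ring
  rw [e1, e2, ey, ← sub_smul, smul_smul, ← sub_eq_iff_eq_add, ← sub_smul] at h1
  have h3 : (2 : K) • (x * C.cr x y + y * C.adj x) =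
      (2 : K) • (C.T (C.adj x * y) • (1 : D)) := by
    rw [← h1, smul_smul]
    congr 1
    ring
  have h4 := congrArg (fun z => (2 : K)⁻¹ • z) h3
  simpa only [inv_smul_smul₀ h20] using h4

/-- The `U`-operator: `x y x = T (x y) x - x^# × y`. -/
theorem U_eq (h20 : (2 : K) ≠ 0) (x y : D) :
    x * y * x = C.T (x * y) • x - C.cr (C.adj x) y := by
  have h1 := mul_cr_add C h20 x y
  have h2 : C.cr (C.adj x) y = C.adj x * y + y * C.adj x - C.T (C.adj x) • y -
      C.T y • C.adj x + (C.T (C.adj x) * C.T y - C.T (C.adj x * y)) • (1 : D) := by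
    rw [Cub.cr]
  have h3 : C.cr x y = x * y + y * x - C.T x • y -
      C.T y • x + (C.T x * C.T y - C.T (x * y)) • (1 : D) := by
    rw [Cub.cr]
  have h4 : C.adj x = x * x - C.T x • x + C.T (C.adj x) • (1 : D) := C.adj_eq x
  rw [h3] at h1
  have h5 : C.adj x * y = x * x * y - C.T x • (x * y) + C.T (C.adj x) • y := by
    conv_lhs => rw [h4]
    rw [add_mul, sub_mul, smul_mul_assoc, smul_mul_assoc, one_mul]
  have h6 : C.T y • C.adj x =
      C.T y • (x * x) - (C.T y * C.T x) • x + (C.T y * C.T (C.adj x)) • (1 : D) := by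
    conv_lhs => rw [h4]
    rw [smul_add, smul_sub, smul_smul, smul_smul]
  rw [h2, h6]
  simp only [mul_add, mul_sub, mul_smul_comm, mul_one] at h1
  have h7 : x * y * x = C.T (C.adj x * y) • (1 : D) - y * C.adj x - x * (x * y) +
      C.T x • (x * y) + C.T y • (x * x) - (C.T x * C.T y - C.T (x * y)) • x := by
    rw [← h1, mul_assoc]
    abel
  rw [h7, h5, mul_assoc x x y]
  module

/-- `g × p^# = T (g p) p - g p p` for commuting `g`, `p`. -/
theorem cr_adj_comm (h20 : (2 : K) ≠ 0) {g p : D} (hgp : Commute g p) :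
    C.cr g (C.adj p) = C.T (g * p) • p - g * p * p := by
  have h := U_eq C h20 p g
  rw [C.cr_comm, eq_sub_iff_add_eq, add_comm, ← eq_sub_iff_add_eq] at h
  rw [h, ← hgp.eq]

/-- `T (g r p^# r)` for commuting `g`, `p`. -/
theorem T_grpr (h20 : (2 : K) ≠ 0) {g p : D} (hgp : Commute g p) (r : D) :
    C.T (g * r * C.adj p * r) = C.T (r * C.adj p) * C.T (g * r) -
      C.T (g * p) * C.T (p * C.adj r) + C.T (g * p * p * C.adj r) := by
  have h1 : g * r * C.adj p * r = g * (r * C.adj p * r) := by simp only [mul_assoc]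
  rw [h1, U_eq C h20 r, mul_sub, mul_smul_comm, map_sub, map_smul, smul_eq_mul]
  have h2 : C.T (g * C.cr (C.adj r) (C.adj p)) = C.T (C.adj r * C.cr g (C.adj p)) :=
    C.T_mul_cr _ _ _
  rw [h2, cr_adj_comm C h20 hgp, mul_sub, mul_smul_comm, map_sub, map_smul, smul_eq_mul,
    C.T_comm (C.adj r) p, C.T_comm (C.adj r)]
  ring

end ident

namespace SCub

section star

variable {K D : Type} [Field K] [StarRing K] [Ring D] [StarRing D] [Algebra K D] {C : Cub K D}
  (h : SCub C) {d : K} (hd : star d = d) {g y : D} (hg : star g = g) (hy : star y = y)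

include h hg hy

include hd in
theorem Gam_symm : star (Gam C d g y) = Gam C d g y := by
  rw [Gam, star_sub, hg, h.smul_symm hd (h.adj_symm hy)]

theorem jj_symm : star (jj C g y) = jj C g y := by
  rw [jj, star_sub, hy, h.cr_symm hg hy]

include hd in
theorem q0_symm : star (q0 C d g y) = q0 C d g y := by
  rw [q0, star_add, star_one, star_mul', hd, star_add, star_mul', star_ofNat,
    h.T_mul_symm hg (h.adj_symm hy), h.T_symm (h.adj_symm hy)]

include hd in
theorem kap0_symm : star (kap0 C d g y) = kap0 C d g y := by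
  rw [kap0, star_sub, star_mul', star_mul', star_mul', star_pow, star_pow, hd, star_ofNat,
    h.N_symm hy, h.T_mul_symm hg hy]

end star

section glue

variable {K D : Type} [Field K] [StarRing K] [DivisionRing D] [StarRing D] [Algebra K D]
  {C : Cub K D} (h : SCub C)

include h

/-- **The glue.** -/
theorem exists_chart {s d : K} (h20 : (2 : K) ≠ 0) (hs0 : s ≠ 0) (hstar : star s = -s)
    (hs : s ^ 2 = d) {x u : D} (hu : u * star u = 1) (hT : C.T ((x - 1) * u) ≠ 0) :
    ∃ g y : D, star g = g ∧ star y = y ∧ C.T g = -1 ∧ C.T y = 0 ∧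
      (2 : K) • ((C.T ((x - 1) * u))⁻¹ • ((x - 1) * u)) = 1 + g + s • y ∧
      ∀ (x0 : K) (xi : D), star x0 = x0 → star xi = xi → (x0 ≠ 0 ∨ xi ≠ 0) →
        C.Cf d g y x0 xi = 0 → C.Qf d g y x0 xi = 0 →
        ∃ w : D, w * star w = 1 ∧ C.T ((x - 1) * w) = 0 := by
  have hz : C.T ((C.T ((x - 1) * u))⁻¹ • ((x - 1) * u)) = 1 := by
    rw [map_smul, smul_eq_mul, inv_mul_cancel₀ hT]
  obtain ⟨g, y, hg, hy, hTg, hTy, h2⟩ := h.exists_gy h20 hs0 hstar hz
  refine ⟨g, y, hg, hy, hTg, hTy, h2, fun x0 xi hx0 hxi hne hC hQ => ?_⟩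
  have hx00 : x0 ≠ 0 := C.x₀_ne_zero hC hne
  have hw := h.cay_unitary (s := x0 * s) h20 (mul_ne_zero hx00 hs0)
    (by rw [star_mul', hx0, hstar, mul_neg]) hxi
  have h3 := h.T_mul_cay h20 hs0 hstar hs hz hTg hTy h2 hxi hx0 hx00 hC hQ
  set v := (xi + (x0 * s) • (1 : D)) * (xi - (x0 * s) • (1 : D))⁻¹
  refine ⟨u * v, ?_, ?_⟩
  · rw [star_mul, mul_assoc, ← mul_assoc v, hw, one_mul, hu]
  · rw [smul_mul_assoc, map_smul, smul_eq_mul] at h3
    rw [← mul_assoc]
    exact (mul_eq_zero.1 h3).resolve_left (inv_ne_zero hT)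

end glue

end SCub

section div

variable {K D : Type} [Field K] [DivisionRing D] [Algebra K D] (C : Cub K D) (d : K) (g y : D)

theorem T_mul_adj_inv_mul {p : D} (hp : p ≠ 0) (m : D) :
    C.N p * C.T (g * C.adj (p⁻¹ * m)) = C.T (p * g * C.adj m) := by
  have hN := C.N_ne_zero hp
  have h1 : C.adj p⁻¹ = (C.N p)⁻¹ • p := by
    rw [C.adj_eq_inv (inv_ne_zero hp), inv_inv, C.N_inv]
  rw [C.adj_mul_distrib, h1, mul_smul_comm, mul_smul_comm, map_smul, smul_eq_mul, ← mul_assoc,
    mul_inv_cancel₀ hN, one_mul, ← mul_assoc, C.T_comm, ← mul_assoc]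

/-- The cubic form in `m = p η`. -/
theorem N_mul_Cf {p : D} (hp : p ≠ 0) (x0 : K) (m : D) :
    C.N p * C.Cf d g y x0 (p⁻¹ * m - (d * x0) • y) =
      C.N m + d * C.N p * x0 ^ 2 * C.T (Gam C d g y * p⁻¹ * m) +
        C.N p * kap0 C d g y * x0 ^ 3 := by
  have hN := C.N_ne_zero hp
  have h1 : C.N p * C.N (p⁻¹ * m) = C.N m := by
    rw [← C.N_mul, ← mul_assoc, mul_inv_cancel₀ hp, one_mul]
  rw [Cf_eta, ← h1, mul_assoc (Gam C d g y)]
  ring

/-- The quadratic form in `m = p η`. -/
theorem N_mul_Qf {p : D} (hp : p ≠ 0) (hy : C.T y = 0) (x0 : K) (m : D) :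
    C.N p * C.Qf d g y x0 (p⁻¹ * m - (d * x0) • y) =
      C.T (p * g * C.adj m) + d * C.N p * x0 * C.T (jj C g y * p⁻¹ * m) +
        d * C.N p * q0 C d g y * x0 ^ 2 := by
  rw [Qf_eta C d g y hy, ← T_mul_adj_inv_mul C g hp m, mul_assoc (jj C g y)]
  ring

variable {g}

/-- `p = 3 + g⁻¹`. -/
def pp (g : D) : D := (3 : D) + g⁻¹

theorem pp_comm : Commute g (pp g) := by
  rw [pp]
  exact (Commute.ofNat_right g 3).add_right (Commute.refl g).inv_right₀

theorem T_mul_pp (hg0 : g ≠ 0) (hg : C.T g = -1) : C.T (g * pp g) = 0 := by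
  have h3 : (3 : D) = (3 : K) • (1 : D) := by
    rw [ofNat_smul_eq_nsmul, nsmul_eq_mul, mul_one]
    rfl
  rw [pp, mul_add, mul_inv_cancel₀ hg0, h3, mul_smul_comm, mul_one, map_add, map_smul, hg, C.T_one,
    smul_eq_mul]
  norm_num

/-- The bridge: the isotropic element `r` gives `s' = r p⁻¹` with `p g` orthogonal to
`1, s', s' ^ 2`. -/
theorem bridge (h20 : (2 : K) ≠ 0) {p r : D} (hp : p ≠ 0) (hgp : Commute g p)
    (h1 : C.T (g * p) = 0) (h2 : C.T (g * r) = 0) (h3 : C.T (g * p * p * C.adj r) = 0) :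
    C.T (p * g) = 0 ∧ C.T (p * g * (r * p⁻¹)) = 0 ∧ C.T (p * g * (r * p⁻¹ * (r * p⁻¹))) = 0 := by
  refine ⟨by rw [C.T_comm, h1], ?_, ?_⟩
  · have : p * g * (r * p⁻¹) = p * (g * r) * p⁻¹ := by simp only [mul_assoc]
    rw [this, C.T_conj hp, h2]
  · have h4 : p * g * (r * p⁻¹ * (r * p⁻¹)) = p * (g * r * p⁻¹ * r) * p⁻¹ := by
      simp only [mul_assoc]
    rw [h4, C.T_conj hp, C.inv_eq hp, mul_smul_comm, smul_mul_assoc, map_smul,
      T_grpr C h20 hgp, h1, h2, h3, mul_zero, zero_mul, sub_zero, zero_add, smul_zero]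

end div

section field

open Polynomial

variable {k K D : Type} [Field k] [Field K] [DivisionRing D] [Algebra k K] [Algebra k D]
  [Algebra K D] [IsScalarTower k K D] (C : Cub K D)

/-- The cubic field `k(s)`. -/
theorem exists_field {s : D} {t e n : k} (ht : C.T s = algebraMap k K t)
    (he : C.S s = algebraMap k K e) (hn : C.N s = algebraMap k K n)
    (hs : ∀ c : k, s ≠ algebraMap k D c) :
    ∃ (E : Type) (_ : Field E) (_ : Algebra k E) (_ : FiniteDimensional k E) (φ : E →ₐ[k] D)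
      (σ : E), finrank k E = 3 ∧ φ σ = s ∧
      ∀ x : E, ∃ a b c : k, x = algebraMap k E a + algebraMap k E b * σ +
        algebraMap k E c * σ ^ 2 := by
  set P : k[X] := X ^ 3 - Polynomial.C t * X ^ 2 + Polynomial.C e * X - Polynomial.C n with hP
  have hPm : P.Monic := by
    rw [hP]
    monicity!
  have hPd : P.natDegree = 3 := by
    rw [hP]
    compute_degree!
  have hPs : aeval s P = 0 := by
    have h := C.cayley s
    rw [ht, he, hn] at h
    simp only [algebraMap_smul] at h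
    rw [← h, hP]
    simp only [map_sub, map_add, map_mul, map_pow, aeval_X, aeval_C, Algebra.smul_def, mul_one]
    noncomm_ring
  have hroot : ∀ c : k, P.eval c ≠ 0 := by
    intro c hc
    have h1 : C.N (algebraMap k K c • (1 : D) - s) = algebraMap k K (P.eval c) := by
      rw [N_sub, adj_smul_one, N_smul_one, smul_mul_assoc, one_mul, map_smul, ht, smul_mul_assoc,
        one_mul, map_smul, smul_eq_mul, smul_eq_mul, hn]
      have h2 : C.T (C.adj s) = algebraMap k K e := he
      rw [h2, hP]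
      simp only [eval_sub, eval_add, eval_mul, eval_pow, eval_X, eval_C, map_sub, map_add, map_mul,
        map_pow]
      ring
    rw [hc, map_zero, C.N_eq_zero, sub_eq_zero] at h1
    apply hs c
    rw [← h1, IsScalarTower.algebraMap_apply k K D, Algebra.algebraMap_eq_smul_one (A := D)]
  have hirr : Irreducible P := by
    rw [hPm.irreducible_iff_roots_eq_zero_of_degree_le_three (by omega) (by omega)]
    apply Multiset.eq_zero_of_forall_notMem
    intro c hc
    exact hroot c (isRoot_of_mem_roots hc)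
  have : Fact (Irreducible P) := ⟨hirr⟩
  let φ : AdjoinRoot P →ₐ[k] D := Ideal.Quotient.liftₐ (Ideal.span {P}) (aeval s) (by
    intro a ha
    obtain ⟨b, rfl⟩ := Ideal.mem_span_singleton'.1 ha
    rw [map_mul, hPs, mul_zero])
  have hφ : φ (AdjoinRoot.root P) = s := by
    change aeval s (X : k[X]) = s
    exact aeval_X s
  let pb := AdjoinRoot.powerBasis hirr.ne_zero
  have hfd : FiniteDimensional k (AdjoinRoot P) := pb.finite
  refine ⟨AdjoinRoot P, inferInstance, inferInstance, hfd, φ, AdjoinRoot.root P, ?_, hφ, ?_⟩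
  · rw [pb.finrank, AdjoinRoot.powerBasis_dim, hPd]
  · intro x
    have hd : pb.dim = 3 := by rw [AdjoinRoot.powerBasis_dim, hPd]
    obtain ⟨f, hf, hx⟩ := pb.exists_eq_aeval x
    rw [hd] at hf
    refine ⟨f.coeff 0, f.coeff 1, f.coeff 2, ?_⟩
    rw [hx, aeval_eq_sum_range' hf, Finset.sum_range_succ, Finset.sum_range_succ,
      Finset.sum_range_one, AdjoinRoot.powerBasis_gen]
    simp only [Algebra.smul_def, pow_zero, pow_one, mul_one]

end field

namespace SCub

section bridge

variable {k K D : Type} [Field k] [Field K] [StarRing K] [DivisionRing D] [StarRing D]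
  [Algebra k K] [Algebra k D] [Algebra K D] [IsScalarTower k K D] {C : Cub K D} (h : SCub C)

include h

theorem pp_symm {g : D} (hg : star g = g) : star (pp g) = pp g := by
  rw [pp, star_add, star_inv₀, hg, star_ofNat]

theorem pp_ne_zero {g : D} (h30 : (3 : K) ≠ 0) (hg : ∀ c : K, g ≠ c • (1 : D)) : pp g ≠ 0 := by
  intro h0
  have h3 : (3 : D) = (3 : K) • (1 : D) := by
    rw [ofNat_smul_eq_nsmul, nsmul_eq_mul, mul_one]
    rfl
  rw [pp, h3] at h0
  apply hg (-(3 : K)⁻¹)
  have h1 : g⁻¹ = (-(3 : K)) • (1 : D) := by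
    rw [neg_smul]
    exact (neg_eq_of_add_eq_zero_right h0).symm
  rw [← inv_inv g, h1]
  symm
  apply eq_inv_of_mul_eq_one_left
  rw [smul_mul_smul_comm, mul_one, neg_mul_neg, inv_mul_cancel₀ h30, one_smul]

/-- The twisted symmetric elements `p x^* = x p` have `T`, `S`, `N` fixed by `star`. -/
theorem sy_TSN {p : D} (hp : p ≠ 0) {x : D} (hx : p * star x = x * p) :
    star (C.T x) = C.T x ∧ star (C.S x) = C.S x ∧ star (C.N x) = C.N x := by
  have h1 : star x = p⁻¹ * x * p⁻¹⁻¹ := by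
    rw [inv_inv, mul_assoc, ← hx, ← mul_assoc, inv_mul_cancel₀ hp, one_mul]
  have hp' := inv_ne_zero hp
  refine ⟨?_, ?_, ?_⟩
  · rw [← h.T, h1, C.T_conj hp']
  · rw [← h.S, h1, Cub.S, C.adj_conj hp', C.T_conj hp', Cub.S]
  · rw [← h.N, h1, C.N_conj hp']

/-- **From the isotropic element `r` to the cubic field `E = k(r p⁻¹)`.** -/
theorem exists_E (h20 : (2 : K) ≠ 0) (h30 : (3 : K) ≠ 0)
    (hfix : ∀ c : K, star c = c → ∃ c' : k, algebraMap k K c' = c)
    (hkfix : ∀ c : k, star (algebraMap k K c) = algebraMap k K c) {g r : D}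
    (hg : star g = g) (hTg : C.T g = -1) (hgc : ∀ c : K, g ≠ c • (1 : D)) (hr : star r = r)
    (hr0 : r ≠ 0) (h1 : C.T r = 0) (h2 : C.T (g * r) = 0) (h2' : C.T (g * g * r) = 0)
    (h3 : C.T (g * pp g * pp g * C.adj r) = 0) :
    ∃ (E : Type) (_ : Field E) (_ : Algebra k E) (_ : FiniteDimensional k E) (φ : E →ₐ[k] D)
      (σ : E), finrank k E = 3 ∧ φ σ = r * (pp g)⁻¹ ∧
      (∀ x : E, ∃ a b c : k, x = algebraMap k E a + algebraMap k E b * σ +
        algebraMap k E c * σ ^ 2) ∧
      (∀ x, pp g * star (φ x) = φ x * pp g) ∧ (∀ x, C.T (pp g * g * φ x) = 0) ∧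
      ∀ x, C.T (pp g * g * C.adj (φ x)) = 0 := by
  have hg0 : g ≠ 0 := fun h0 => hgc 0 (by rw [h0, zero_smul])
  set p := pp g with hp_def
  have hp : p ≠ 0 := h.pp_ne_zero h30 hgc
  have hps : star p = p := h.pp_symm hg
  have hgp : Commute g p := pp_comm
  have hTgp : C.T (g * p) = 0 := T_mul_pp C hg0 hTg
  obtain ⟨b1, b2, b3⟩ := bridge C h20 hp hgp hTgp h2 h3
  obtain ⟨s', hs'⟩ : ∃ s' : D, s' = r * p⁻¹ := ⟨_, rfl⟩
  rw [← hs'] at b2 b3
  rw [← hs']
  have hsy : p * star s' = s' * p := by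
    rw [hs', star_mul, star_inv₀, hps, hr, ← mul_assoc, mul_inv_cancel₀ hp, one_mul, mul_assoc,
      inv_mul_cancel₀ hp, mul_one]
  obtain ⟨c1, c2, c3⟩ := h.sy_TSN hp hsy
  obtain ⟨t, ht⟩ := hfix _ c1
  obtain ⟨e, he⟩ := hfix _ c2
  obtain ⟨n, hn⟩ := hfix _ c3
  have hs : ∀ c : k, s' ≠ algebraMap k D c := by
    intro c hc
    -- `r = c p`, so `T (r p^#) = 3 c N p = 0`
    have e1 : r = algebraMap k K c • p := by
      have : r = s' * p := by rw [hs', mul_assoc, inv_mul_cancel₀ hp, mul_one]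
      rw [this, hc, IsScalarTower.algebraMap_apply k K D, Algebra.smul_def]
    have hc0 : algebraMap k K c ≠ 0 := by
      intro h0
      rw [h0, zero_smul] at e1
      exact hr0 e1
    have f1 : C.T (r * 1) = 0 := by rw [mul_one, h1]
    have f2 : C.T (r * g) = 0 := by rw [C.T_comm, h2]
    have f3 : C.T (r * (g * g)) = 0 := by rw [C.T_comm, h2']
    have f4 : C.T (r * g⁻¹) = 0 := by
      rw [C.inv_eq hg0, mul_smul_comm, map_smul, C.adj_eq g, mul_add, mul_sub, mul_smul_comm,
        mul_smul_comm, map_add, map_sub, map_smul, map_smul, f1, f2, f3, smul_zero, smul_zero,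
        sub_zero, add_zero, smul_zero]
    have f5 : C.T (r * (g⁻¹ * g⁻¹)) = 0 := by
      have : g⁻¹ * g⁻¹ = (C.N g)⁻¹ • (g - C.T g • (1 : D) + C.S g • g⁻¹) := by
        have h5 : C.adj g * g⁻¹ = g - C.T g • (1 : D) + C.S g • g⁻¹ := by
          rw [C.adj_eq g, add_mul, sub_mul, smul_mul_assoc, smul_mul_assoc, one_mul, mul_assoc,
            mul_inv_cancel₀ hg0, mul_one]
        rw [← h5, ← smul_mul_assoc, ← C.inv_eq hg0]
      rw [this, mul_smul_comm, map_smul, mul_add, mul_sub, mul_smul_comm, mul_smul_comm, map_add,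
        map_sub, map_smul, map_smul, f1, f2, f4, smul_zero, smul_zero, sub_zero, add_zero,
        smul_zero]
    have h3' : p = (3 : K) • (1 : D) + g⁻¹ := by
      rw [hp_def, pp, ofNat_smul_eq_nsmul, nsmul_eq_mul, mul_one]
      rfl
    have f6 : C.T (r * p) = 0 := by
      rw [h3', mul_add, mul_smul_comm, map_add, map_smul, f1, f4, smul_zero, add_zero]
    have f7 : C.T (r * (p * p)) = 0 := by
      have : p * p = (9 : K) • (1 : D) + (6 : K) • g⁻¹ + g⁻¹ * g⁻¹ := by
        rw [h3', add_mul, mul_add, mul_add, smul_mul_assoc, smul_mul_assoc, mul_smul_comm,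
          mul_smul_comm, one_mul, mul_one, one_mul]
        module
      rw [this, mul_add, mul_add, mul_smul_comm, mul_smul_comm, map_add, map_add, map_smul,
        map_smul, f1, f4, f5, smul_zero, smul_zero, add_zero, add_zero]
    rw [e1, smul_mul_assoc, map_smul, smul_eq_mul] at f1 f6 f7
    have g1 := (mul_eq_zero.1 f1).resolve_left hc0
    have g6 := (mul_eq_zero.1 f6).resolve_left hc0
    have g7 := (mul_eq_zero.1 f7).resolve_left hc0
    have e7 := C.T_mul_adj p
    rw [C.adj_eq, mul_add, mul_sub, mul_smul_comm, mul_smul_comm, map_add, map_sub, map_smul,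
      map_smul, g1, g6, g7, smul_zero, smul_zero, sub_zero, add_zero] at e7
    exact (mul_ne_zero h30 (C.N_ne_zero hp)) e7.symm
  obtain ⟨E, _, _, _, φ, σ, hE, hφ, hspan⟩ := exists_field C ht.symm he.symm hn.symm hs
  have hex : ∀ x : E, ∃ a b c : k, φ x = algebraMap k K a • (1 : D) + algebraMap k K b • s' +
      algebraMap k K c • (s' * s') := by
    intro x
    obtain ⟨a, b, c, rfl⟩ := hspan x
    refine ⟨a, b, c, ?_⟩
    rw [map_add, map_add, map_mul, map_mul, map_pow, hφ, AlgHom.commutes, AlgHom.commutes,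
      AlgHom.commutes, pow_two, Algebra.smul_def, Algebra.smul_def, Algebra.smul_def, mul_one,
      IsScalarTower.algebraMap_apply k K D, IsScalarTower.algebraMap_apply k K D,
      IsScalarTower.algebraMap_apply k K D]
  have hJ : ∀ x, p * star (φ x) = φ x * p := by
    intro x
    obtain ⟨a, b, c, hx⟩ := hex x
    have hss : p * (star s' * star s') = s' * s' * p := by
      rw [← mul_assoc, hsy, mul_assoc, hsy, ← mul_assoc]
    rw [hx, star_add, star_add, h.smul, h.smul, h.smul, star_one, star_mul, hkfix, hkfix, hkfix,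
      mul_add, mul_add, mul_smul_comm, mul_smul_comm, mul_smul_comm, hss, hsy, mul_one, add_mul,
      add_mul, smul_mul_assoc, smul_mul_assoc, smul_mul_assoc, one_mul]
  have hT : ∀ x, C.T (p * g * φ x) = 0 := by
    intro x
    obtain ⟨a, b, c, hx⟩ := hex x
    rw [hx, mul_add, mul_add, mul_smul_comm, mul_smul_comm, mul_smul_comm, mul_one, map_add,
      map_add, map_smul, map_smul, map_smul, b1, b2, b3, smul_zero, smul_zero, smul_zero,
      add_zero, add_zero]
  refine ⟨E, inferInstance, inferInstance, inferInstance, φ, σ, hE, hφ, hspan, hJ, hT, ?_⟩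
  intro x
  obtain ⟨d1, d2, -⟩ := h.sy_TSN hp (hJ x)
  obtain ⟨t', ht'⟩ := hfix _ d1
  obtain ⟨e', he'⟩ := hfix _ d2
  have h5 : C.adj (φ x) = φ (x * x - algebraMap k E t' * x + algebraMap k E e') := by
    rw [C.adj_eq, ← ht', ← he', map_add, map_sub, map_mul, map_mul, AlgHom.commutes,
      AlgHom.commutes, Algebra.smul_def, Algebra.smul_def, mul_one,
      ← IsScalarTower.algebraMap_apply k K D, ← IsScalarTower.algebraMap_apply k K D]
  rw [h5, hT]

end bridge

end SCub

end Vale.Agent.P011.H948
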