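import Vale.Agent.P011.H775.M3c

/-!
**The chart attached to a unitary element and an isotropic element, over any field with
`2 ≠ 0`, `3 ≠ 0`, and with an abstract `p` (`p` commutes with `g`, `T (g p) = 0`).**
-/

open Module Polynomial

set_option linter.unusedSectionVars false
set_option linter.unusedVariables false

namespace Vale.Agent.P011.H948

open Vale.Agent.P011.H775

/-- A cubic extension is separable if `3 ≠ 0`. -/
theorem isSeparable_of_three {k F : Type} [Field k] [Field F] [Algebra k F]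
    [FiniteDimensional k F] (hF : finrank k F = 3) (h3 : (3 : k) ≠ 0) :
    Algebra.IsSeparable k F := by
  refine ⟨fun x => ?_⟩
  have hx : IsIntegral k x := IsIntegral.of_finite k x
  have hirr := minpoly.irreducible hx
  refine (separable_iff_derivative_ne_zero hirr).2 fun h0 => ?_
  have hd : (minpoly k x).natDegree ∣ 3 := hF ▸ minpoly.degree_dvd hx
  have hd' : (minpoly k x).natDegree = 1 ∨ (minpoly k x).natDegree = 3 :=
    (Nat.dvd_prime Nat.prime_three).1 hd
  have h1 := congrArg (fun P => P.coeff ((minpoly k x).natDegree - 1)) h0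
  simp only [coeff_derivative, coeff_zero] at h1
  have h2 : (minpoly k x).natDegree - 1 + 1 = (minpoly k x).natDegree := by omega
  rw [h2, coeff_natDegree, (minpoly.monic hx).leadingCoeff, one_mul] at h1
  rcases hd' with h | h
  · rw [h] at h1
    norm_num at h1
  · rw [h] at h1
    norm_num at h1
    exact h3 h1

namespace SCub

section bridge

variable {k K D : Type} [Field k] [Field K] [StarRing K] [DivisionRing D] [StarRing D]
  [Algebra k K] [Algebra k D] [Algebra K D] [IsScalarTower k K D] {C : Cub K D} (h : SCub C)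

include h

/-- **From the isotropic element `r` to the cubic field `E = k(r p⁻¹)`**, abstract `p`. -/
theorem exists_E_gen (h20 : (2 : K) ≠ 0)
    (hfix : ∀ c : K, star c = c → ∃ c' : k, algebraMap k K c' = c)
    (hkfix : ∀ c : k, star (algebraMap k K c) = algebraMap k K c) {g p r : D} (hp : p ≠ 0)
    (hps : star p = p) (hgp : Commute g p) (hTgp : C.T (g * p) = 0) (hr : star r = r)
    (hrp : ∀ c : k, r ≠ algebraMap k K c • p) (h2 : C.T (g * r) = 0)
    (h3 : C.T (g * p * p * C.adj r) = 0) :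
    ∃ (E : Type) (_ : Field E) (_ : Algebra k E) (_ : FiniteDimensional k E) (φ : E →ₐ[k] D)
      (σ : E), finrank k E = 3 ∧ φ σ = r * p⁻¹ ∧
      (∀ x : E, ∃ a b c : k, x = algebraMap k E a + algebraMap k E b * σ +
        algebraMap k E c * σ ^ 2) ∧
      (∀ x, p * star (φ x) = φ x * p) ∧ (∀ x, C.T (p * g * φ x) = 0) ∧
      ∀ x, C.T (p * g * C.adj (φ x)) = 0 := by
  obtain ⟨b1, b2, b3⟩ := bridge C h20 hp hgp hTgp h2 h3
  obtain ⟨s', hs'⟩ : ∃ s' : D, s' = r * p⁻¹ := ⟨_, rfl⟩
  rw [← hs'] at b2 b3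
  rw [← hs']
  have hsy : p * star s' = s' * p := by
    rw [hs', star_mul, star_inv₀, hps, hr, ← mul_assoc, mul_inv_cancel₀ hp, one_mul, mul_assoc,
      inv_mul_cancel₀ hp, mul_one]
  obtain ⟨c1, c2, c3⟩ := h.sy_TSN hp hsy
  obtain ⟨t, ht⟩ := hfix _ c1
  obtain ⟨e, he⟩ := hfix _ c2
  obtain ⟨n, hn⟩ := hfix _ c3
  have hs : ∀ c : k, s' ≠ algebraMap k D c := by
    intro c hc
    apply hrp c
    have : r = s' * p := by rw [hs', mul_assoc, inv_mul_cancel₀ hp, mul_one]
    rw [this, hc, IsScalarTower.algebraMap_apply k K D, Algebra.smul_def]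
  obtain ⟨E, _, _, _, φ, σ, hE, hφ, hspan⟩ := exists_field C ht.symm he.symm hn.symm hs
  have hex : ∀ x : E, ∃ a b c : k, φ x = algebraMap k K a • (1 : D) + algebraMap k K b • s' +
      algebraMap k K c • (s' * s') := by
    intro x
    obtain ⟨a, b, c, rfl⟩ := hspan x
    refine ⟨a, b, c, ?_⟩
    rw [map_add, map_add, map_mul, map_mul, map_pow, hφ, AlgHom.commutes, AlgHom.commutes,
      AlgHom.commutes, pow_two, Algebra.smul_def, Algebra.smul_def, Algebra.smul_def, mul_one,
      IsScalarTower.algebraMap_apply k K D, IsScalarTower.algebraMap_apply k K D,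
      IsScalarTower.algebraMap_apply k K D]
  have hJ : ∀ x, p * star (φ x) = φ x * p := by
    intro x
    obtain ⟨a, b, c, hx⟩ := hex x
    have hss : p * (star s' * star s') = s' * s' * p := by
      rw [← mul_assoc, hsy, mul_assoc, hsy, ← mul_assoc]
    rw [hx, star_add, star_add, h.smul, h.smul, h.smul, star_one, star_mul, hkfix, hkfix, hkfix,
      mul_add, mul_add, mul_smul_comm, mul_smul_comm, mul_smul_comm, hss, hsy, mul_one, add_mul,
      add_mul, smul_mul_assoc, smul_mul_assoc, smul_mul_assoc, one_mul]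
  have hT : ∀ x, C.T (p * g * φ x) = 0 := by
    intro x
    obtain ⟨a, b, c, hx⟩ := hex x
    rw [hx, mul_add, mul_add, mul_smul_comm, mul_smul_comm, mul_smul_comm, mul_one, map_add,
      map_add, map_smul, map_smul, map_smul, b1, b2, b3, smul_zero, smul_zero, smul_zero,
      add_zero, add_zero]
  refine ⟨E, inferInstance, inferInstance, inferInstance, φ, σ, hE, hφ, hspan, hJ, hT, ?_⟩
  intro x
  obtain ⟨d1, d2, -⟩ := h.sy_TSN hp (hJ x)
  obtain ⟨t', ht'⟩ := hfix _ d1
  obtain ⟨e', he'⟩ := hfix _ d2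
  have h5 : C.adj (φ x) = φ (x * x - algebraMap k E t' * x + algebraMap k E e') := by
    rw [C.adj_eq, ← ht', ← he', map_add, map_sub, map_mul, map_mul, AlgHom.commutes,
      AlgHom.commutes, Algebra.smul_def, Algebra.smul_def, mul_one,
      ← IsScalarTower.algebraMap_apply k K D, ← IsScalarTower.algebraMap_apply k K D]
  rw [h5, hT]

end bridge

section chart

variable {k K D : Type} [Field k] [Field K] [StarRing K] [DivisionRing D] [StarRing D]
  [Algebra k K] [Algebra k D] [Algebra K D] [IsScalarTower k K D] [FiniteDimensional K D]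
  [Algebra.IsCentral K D]

/-- **The chart attached to a unitary element and an isotropic element**, any field with
`2 ≠ 0`, `3 ≠ 0`, abstract `p`. -/
theorem exists_dat_gen {d : k} {s : K} (sq : s ^ 2 = algebraMap k K d) (d0 : d ≠ 0)
    (star_s : star s = -s) (fix : ∀ x : K, star x = x ↔ x ∈ Set.range (algebraMap k K))
    (rank : finrank k K = 2)
    (star_smul : ∀ (x : K) (y : D), star (x • y) = star x • star y)
    (h2 : (2 : k) ≠ 0) (h3 : (3 : k) ≠ 0) (hdeg : finrank K D = 3 ^ 2) (C : Cub K D) {x u : D}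
    (hu : u * star u = 1) (hT : C.T ((x - 1) * u) ≠ 0) :
    ∃ g y : D, star g = g ∧ star y = y ∧ C.T g = -1 ∧ C.T y = 0 ∧
      (2 : K) • ((C.T ((x - 1) * u))⁻¹ • ((x - 1) * u)) = 1 + g + s • y ∧
      ∀ p r : D, p ≠ 0 → star p = p → Commute g p → C.T (g * p) = 0 →
        C.T (C.adj (p * g)) ≠ 0 → star r = r → (∀ c : k, r ≠ algebraMap k K c • p) →
        C.T (g * r) = 0 → C.T (g * p * p * C.adj r) = 0 →
        ∃ (F : Type) (_ : Field F) (_ : Algebra k F) (_ : FiniteDimensional k F)
          (_ : Algebra.IsSeparable k F) (φ : F →ₐ[k] D) (σ : F) (M : Dat C φ),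
          finrank k F = 3 ∧ φ σ = r * p⁻¹ ∧
          M.p = p ∧ M.g = g ∧ M.y = y ∧ M.δ = s ∧ M.d = d ∧
          ∀ z : F × k, z ≠ 0 → M.Q z = 0 → ∀ e : F,
            Algebra.norm k e + Algebra.trace k F (e * M.A z) + M.G z = 0 →
            ∃ w : D, w * star w = 1 ∧ C.T ((x - 1) * w) = 0 := by
  have h20 : (2 : K) ≠ 0 := by
    have h := (_root_.map_ne_zero (algebraMap k K)).2 h2
    rwa [map_ofNat] at h
  have hC := sCub_of C hdeg star_smul
  have hs0 : s ≠ 0 := by
    intro h0
    rw [h0, zero_pow (by norm_num)] at sq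
    exact (_root_.map_ne_zero (algebraMap k K)).2 d0 sq.symm
  obtain ⟨g, y, hg, hy, hTg, hTy, h2', hw⟩ := hC.exists_chart h20 hs0 star_s sq hu hT
  refine ⟨g, y, hg, hy, hTg, hTy, h2', ?_⟩
  intro p r hp0 hps hgp hTgp hne hr hrp e2 e4
  have hfix : ∀ c : K, star c = c → ∃ c' : k, algebraMap k K c' = c := fun c hc =>
    (fix c).1 hc
  have hkfix : ∀ c : k, star (algebraMap k K c) = algebraMap k K c := fun c =>
    (fix _).2 ⟨c, rfl⟩
  obtain ⟨F, _, _, _, φ, σ, hF, hσ, hsp, hsy, ho, -⟩ := hC.exists_E_gen h20 hfix hkfix hp0 hps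
    hgp hTgp hr hrp e2 e4
  have hsep : Algebra.IsSeparable k F := isSeparable_of_three hF h3
  have H : Cfd C φ p :=
    { hD := hdeg
      hss := fun c => by
        rw [Algebra.algebraMap_eq_smul_one, star_smul, star_one,
          ← Algebra.algebraMap_eq_smul_one]
      hfix := fun c hc => (fix c).1 hc
      hfix' := hkfix
      hF := hF
      hK := rank
      h2 := h2
      hp := hps
      hp0 := hp0
      hφ := hsy }
  obtain ⟨M, hMp, hMg, hMy, hMδ, hMd⟩ := H.exists_dat star_s sq d0 h3 hg hy ho hne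
  refine ⟨F, inferInstance, inferInstance, inferInstance, hsep, φ, σ, M, hF, hσ, hMp, hMg, hMy,
    hMδ, hMd, ?_⟩
  intro z hz hQ e he
  obtain ⟨hq, hc⟩ := M.main hQ he
  have hz2 := M.x₀_ne_zero hz hc
  refine hw (algebraMap k K z.2) (M.xi z e) (hkfix _) (M.star_xi z e)
    (Or.inl ((_root_.map_ne_zero _).2 hz2)) ?_ ?_
  · rw [← hMg, ← hMy, ← hMd]
    exact hc
  · rw [← hMg, ← hMy, ← hMd]
    exact hq

end chart

end SCub

end Vale.Agent.P011.H948
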