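import Vale.Agent.P011.H948.DatF
import Vale.Agent.P011.H775.M3e
import Vale.Agent.P011.H279.SpecI

/-!
**F1 in the letters of helper279, with the elements of trace zero prescribed.**
-/

open Module Polynomial

set_option linter.unusedSectionVars false
set_option linter.unusedVariables false

namespace Vale.Agent.P011.H948

open Vale.Agent.P011.H775 Vale.Agent.P011.H271 Vale.Agent.P011.H305 Vale.Agent.P011.H279.Asm

namespace SCub

variable {k K D : Type} [Field k] [Field K] [StarRing K] [DivisionRing D] [StarRing D]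
  [Algebra k K] [Algebra k D] [Algebra K D] [IsScalarTower k K D] [FiniteDimensional K D]
  [Algebra.IsCentral K D]

/-- **The chart attached to a unitary element and an isotropic element**, any field with
`2 ≠ 0`, `3 ≠ 0`, `p = 3 + g⁻¹`, with the elements of trace zero prescribed. -/
theorem exists_dat_gen' {d : k} {s : K} (sq : s ^ 2 = algebraMap k K d) (d0 : d ≠ 0)
    (star_s : star s = -s) (fix : ∀ x : K, star x = x ↔ x ∈ Set.range (algebraMap k K))
    (rank : finrank k K = 2)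
    (star_smul : ∀ (x : K) (y : D), star (x • y) = star x • star y)
    (h2 : (2 : k) ≠ 0) (h3 : (3 : k) ≠ 0) (hdeg : finrank K D = 3 ^ 2) (C : Cub K D) {x u : D}
    (hu : u * star u = 1) (hT : C.T ((x - 1) * u) ≠ 0) :
    ∃ g y : D, Chart C s x u g y ∧
      ∀ r : D, (∀ c : K, g ≠ c • (1 : D)) → 3 * C.S g ≠ 1 → r ≠ 0 → Val C g r (0 : k) →
        ∃ (F : Type) (_ : Field F) (_ : Algebra k F) (_ : FiniteDimensional k F)
          (_ : Algebra.IsSeparable k F) (φ : F →ₐ[k] D) (σ : F) (M : Dat C φ),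
          finrank k F = 3 ∧ φ σ = r * (pp g)⁻¹ ∧ M.p = pp g ∧ M.g = g ∧ M.y = y ∧
          M.δ = s ∧ M.d = d ∧ Algebra.trace k F σ = 0 ∧ M.a = σ ∧
          M.b = σ ^ 2 - algebraMap k F (Algebra.trace k F (σ ^ 2) / 3) ∧
          ∀ z : F × k, z ≠ 0 → M.Q z = 0 → ∀ e : F,
            Algebra.norm k e + Algebra.trace k F (e * M.A z) + M.G z = 0 →
            ∃ w : D, w * star w = 1 ∧ C.T ((x - 1) * w) = 0 := by
  have h20 : (2 : K) ≠ 0 := by
    have h := (_root_.map_ne_zero (algebraMap k K)).2 h2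
    rwa [map_ofNat] at h
  have h30 : (3 : K) ≠ 0 := by
    have h := (_root_.map_ne_zero (algebraMap k K)).2 h3
    rwa [map_ofNat] at h
  have hC := sCub_of C hdeg star_smul
  have hs0 : s ≠ 0 := by
    intro h0
    rw [h0, zero_pow (by norm_num)] at sq
    exact (_root_.map_ne_zero (algebraMap k K)).2 d0 sq.symm
  obtain ⟨g, y, hg, hy, hTg, hTy, h2', hw⟩ := hC.exists_chart h20 hs0 star_s sq hu hT
  refine ⟨g, y, ⟨hg, hy, hTg, hTy, h2'⟩, ?_⟩
  rintro r hgc hSg hr0 ⟨hr, e1, e2, e3, e4⟩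
  rw [map_zero] at e4
  have hfix : ∀ c : K, star c = c → ∃ c' : k, algebraMap k K c' = c := fun c hc =>
    (fix c).1 hc
  have hkfix : ∀ c : k, star (algebraMap k K c) = algebraMap k K c := fun c =>
    (fix _).2 ⟨c, rfl⟩
  obtain ⟨F, _, _, _, φ, σ, hF, hσ, hsp, hsy, ho, -⟩ := hC.exists_E h20 h30 hfix hkfix hg hTg hgc
    hr hr0 e1 e2 e3 e4
  have hsep : Algebra.IsSeparable k F := isSeparable_of_three hF h3
  have hg0 : g ≠ 0 := fun h0 => hgc 0 (by rw [h0, zero_smul])
  have hp0 : pp g ≠ 0 := hC.pp_ne_zero h30 hgc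
  have H : Cfd C φ (pp g) :=
    { hD := hdeg
      hss := fun c => by
        rw [Algebra.algebraMap_eq_smul_one, star_smul, star_one,
          ← Algebra.algebraMap_eq_smul_one]
      hfix := fun c hc => (fix c).1 hc
      hfix' := hkfix
      hF := hF
      hK := rank
      h2 := h2
      hp := hC.pp_symm hg
      hp0 := hp0
      hφ := hsy }
  have hne : C.T (C.adj (pp g * g)) ≠ 0 := by
    rw [S_three_add hg0 hTg]
    intro h0
    apply hSg
    have h5 : (3 : K) * (3 * C.S g - 1) = 0 := by linear_combination h0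
    exact sub_eq_zero.1 ((mul_eq_zero.1 h5).resolve_left h30)
  have hTσ : C.T (r * (pp g)⁻¹) = 0 := T_mul_pp_inv C hg0 hp0 e1 e2 e3
  have hta : Algebra.trace k F σ = 0 := by
    apply (algebraMap k K).injective
    rw [← H.T_φ, hσ, hTσ, map_zero]
  have hac : ∀ c : k, σ ≠ algebraMap k F c := by
    intro c hc
    have h1 : algebraMap k D c = r * (pp g)⁻¹ := by rw [← hσ, hc, φ.commutes]
    rw [← h1, IsScalarTower.algebraMap_apply k K D, Algebra.algebraMap_eq_smul_one, map_smul,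
      C.T_one, smul_eq_mul] at hTσ
    have h2 : algebraMap k K c = 0 := by
      rcases mul_eq_zero.1 hTσ with h | h
      · exact h
      · exact absurd h h30
    rw [IsScalarTower.algebraMap_apply k K D, h2, map_zero] at h1
    exact (mul_ne_zero hr0 (inv_ne_zero hp0)) h1.symm
  obtain ⟨Ω, _, _, ⟨S⟩⟩ := H.exists_dspl
  obtain ⟨htb, hab⟩ := S.D0_sq_ne hF h3 hta hac
  obtain ⟨M, hMp, hMg, hMy, hMδ, hMd, hMa, hMb⟩ := H.exists_dat_of star_s sq d0 h3 hg hy ho hne
    hta htb hab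
  refine ⟨F, inferInstance, inferInstance, inferInstance, hsep, φ, σ, M, hF, hσ, hMp, hMg, hMy,
    hMδ, hMd, hta, hMa, hMb, ?_⟩
  intro z hz hQ e he
  obtain ⟨hq, hc⟩ := M.main hQ he
  have hz2 := M.x₀_ne_zero hz hc
  refine hw (algebraMap k K z.2) (M.xi z e) (hkfix _) (M.star_xi z e)
    (Or.inl ((_root_.map_ne_zero _).2 hz2)) ?_ ?_
  · rw [← hMg, ← hMy, ← hMd]
    exact hc
  · rw [← hMg, ← hMy, ← hMd]
    exact hq

end SCub

variable {k K D : Type} [Field k] [Field K] [StarRing K] [DivisionRing D] [StarRing D]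
  [Algebra k K] [Algebra k D] [Algebra K D] [IsScalarTower k K D] [FiniteDimensional K D]
  [Algebra.IsCentral K D]

/-- **F1 with the elements of trace zero prescribed.** -/
theorem f1' {d : kˣ} {s : K} (hS : SetF k K D d s) (h3 : (3 : k) ≠ 0)
    (hdeg : finrank K D = 3 ^ 2) (C : Cub K D) (x u : D) (hu : u * star u = 1)
    (hT : C.T ((x - 1) * u) ≠ 0) :
    ∃ g y : D, Chart C s x u g y ∧
      ∀ r : D, (∀ c : K, g ≠ c • (1 : D)) → 3 * C.S g ≠ 1 → r ≠ 0 → Val C g r (0 : k) →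
        ∃ (F : Type) (_ : Field F) (_ : Algebra k F) (_ : FiniteDimensional k F)
          (_ : Algebra.IsSeparable k F) (φ : F →ₐ[k] D) (σ : F) (M : Dat C φ),
          DatAt M d s g y r σ ∧ Algebra.trace k F σ = 0 ∧ M.a = σ ∧
          M.b = σ ^ 2 - algebraMap k F (Algebra.trace k F (σ ^ 2) / 3) ∧
          ∀ z : F × k, z ≠ 0 → M.Q z = 0 → ∀ e : F,
            Algebra.norm k e + Algebra.trace k F (e * M.A z) + M.G z = 0 →
            ∃ w : D, w * star w = 1 ∧ C.T ((x - 1) * w) = 0 := by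
  obtain ⟨g, y, hch, hw⟩ := SCub.exists_dat_gen' hS.sq d.ne_zero hS.star_s hS.fix hS.rank
    hS.star_smul hS.two_ne h3 hdeg C hu hT
  refine ⟨g, y, hch, fun r e1 e2 e3 e4 => ?_⟩
  obtain ⟨F, _, _, _, _, φ, σ, M, a1, a2, a3, a4, a5, a6, a7, a8, a9, a10, a11⟩ :=
    hw r e1 e2 e3 e4
  exact ⟨F, inferInstance, inferInstance, inferInstance, inferInstance, φ, σ, M,
    ⟨a1, a2, a3, a4, a5, a6, a7⟩, a8, a9, a10, a11⟩

/-- **F1, verbatim.** -/
theorem f1 {d : kˣ} {s : K} (hS : SetF k K D d s) (h3 : (3 : k) ≠ 0)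
    (hdeg : finrank K D = 3 ^ 2) (C : Cub K D) : F1Stmt C d s := by
  intro x u hu hT
  obtain ⟨g, y, hch, hw⟩ := f1' hS h3 hdeg C x u hu hT
  refine ⟨g, y, hch, fun r e1 e2 e3 e4 => ?_⟩
  obtain ⟨F, _, _, _, _, φ, σ, M, a1, -, -, -, a11⟩ := hw r e1 e2 e3 e4
  exact ⟨F, inferInstance, inferInstance, inferInstance, inferInstance, φ, σ, M, a1, a11⟩

end Vale.Agent.P011.H948
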