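import Vale.Agent.P011.H948.R3Ext

/-!
Lemma B in rank two from the relation for planes whose first line has the length of a second
line. Any infinite field of central elements fixed by the involution, characteristic not two.
-/

open Module Matrix
open Polynomial hiding map_ne_zero

set_option linter.unusedSectionVars false

namespace Vale.Agent.P011.H948.R3

section poly

variable {k D : Type} [Field k] [DivisionRing D] [Algebra k D]

/-- A quadratic polynomial with coefficients in a vector space has finitely many roots. -/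
theorem finite_quad (c₀ c₁ : D) {c₂ : D} (h : c₂ ≠ 0) :
    {t : k | c₀ + t • c₁ + t ^ 2 • c₂ = 0}.Finite := by
  obtain ⟨φ, hφ⟩ : ∃ φ : Module.Dual k D, φ c₂ ≠ 0 := by
    by_contra hcon
    push Not at hcon
    exact h ((Module.forall_dual_apply_eq_zero_iff k c₂).mp hcon)
  obtain ⟨p, hp⟩ : ∃ p : Polynomial k, p = C (φ c₀) + C (φ c₁) * X + C (φ c₂) * X ^ 2 := ⟨_, rfl⟩
  have hp0 : p ≠ 0 := by
    intro h0
    have h1 : p.coeff 2 = φ c₂ := by
      rw [hp]
      simp
    rw [h0, coeff_zero] at h1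
    exact hφ h1.symm
  refine (Polynomial.finite_setOfPred_isRoot hp0).subset ?_
  intro t ht
  have h1 := congrArg φ (show c₀ + t • c₁ + t ^ 2 • c₂ = 0 from ht)
  rw [map_add, map_add, map_smul, map_smul, map_zero, smul_eq_mul, smul_eq_mul] at h1
  change p.eval t = 0
  rw [hp]
  simp only [eval_add, eval_mul, eval_C, eval_X, eval_pow]
  linear_combination h1

theorem finite_lin (c₀ : D) {c₁ : D} (h : c₁ ≠ 0) : {t : k | c₀ + t • c₁ = 0}.Finite := by
  refine Set.Subsingleton.finite ?_
  intro t ht r hr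
  have h1 : c₀ + t • c₁ = 0 := ht
  have h2 : c₀ + r • c₁ = 0 := hr
  have h3 : (t - r) • c₁ = 0 := by
    rw [sub_smul]
    calc t • c₁ - r • c₁ = (c₀ + t • c₁) - (c₀ + r • c₁) := by abel
      _ = 0 := by rw [h1, h2, sub_self]
  exact sub_eq_zero.mp ((smul_eq_zero.mp h3).resolve_right h)

end poly

section same

variable {k D : Type} [Field k] [Infinite k] [DivisionRing D] [StarRing D] [Algebra k D]
  {A : Type} [CommGroup A]

/-- The relation for planes whose first line has the length of a second line. -/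
def RelE (ψ : D → A) : Prop :=
  ∀ z z₂ r : D, z + star z ≠ 0 → z * r + star (z * r) ≠ 0 → z₂ + star z₂ ≠ 0 →
    star r * z₂ + star (star r * z₂) ≠ 0 → star z + z * r - z₂ ≠ 0 →
    (z * r + star (z * r)) - star (star z + z * r - z₂) * (z + star z)⁻¹ *
      (star z + z * r - z₂) ≠ 0 →
    ((∃ g : D, g ≠ 0 ∧ star r * z₂ + star (star r * z₂) = g * (z + star z) * star g) ∨
      ∃ g : D, g ≠ 0 ∧ z₂ + star z₂ = g * (z * r + star (z * r)) * star g) →
    ψ z * ψ z₂ = ψ (z * r) * ψ (star r * z₂)

omit [Infinite k] in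
/-- The symmetric elements. -/
def symSpace (hst : ∀ (q : k) (x : D), star (q • x) = q • star x) : Submodule k D where
  carrier := {x | star x = x}
  add_mem' := by
    intro a b ha hb
    change star (a + b) = a + b
    rw [star_add, show star a = a from ha, show star b = b from hb]
  zero_mem' := star_zero D
  smul_mem' := by
    intro q x hx
    change star (q • x) = q • x
    rw [hst, show star x = x from hx]

omit [Infinite k] in
theorem mem_symSpace (hst : ∀ (q : k) (x : D), star (q • x) = q • star x) {x : D} :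
    x ∈ symSpace hst ↔ star x = x := Iff.rfl

/-- The map `(s, t) ↦ s + a t` on pairs of symmetric elements. -/
def pairMap (hst : ∀ (q : k) (x : D), star (q • x) = q • star x) (a : D) :
    (symSpace hst × symSpace hst) →ₗ[k] D :=
  (symSpace hst).subtype.comp (LinearMap.fst k _ _) +
    ((LinearMap.mulLeft k a).comp (symSpace hst).subtype).comp (LinearMap.snd k _ _)

omit [Infinite k] in
theorem pairMap_apply (hst : ∀ (q : k) (x : D), star (q • x) = q • star x) (a : D)
    (z : symSpace hst × symSpace hst) : pairMap hst a z = (z.1 : D) + a * z.2 := rfl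

omit [Infinite k] in
theorem finrank_pair [FiniteDimensional k D] (hst : ∀ (q : k) (x : D), star (q • x) = q • star x)
    (h2 : (2 : D) ≠ 0) {θ : D} (hθ0 : θ ≠ 0)
    (hθ : ∀ x, x * θ = θ * x) (hθs : star θ = -θ) :
    finrank k (symSpace hst × symSpace hst) = finrank k D := by
  refine (LinearEquiv.ofBijective (pairMap hst θ) ⟨?_, ?_⟩).finrank_eq
  · rw [← LinearMap.ker_eq_bot, LinearMap.ker_eq_bot']
    rintro ⟨⟨s, hs⟩, ⟨t, ht⟩⟩ h
    rw [pairMap_apply] at h
    change s + θ * t = 0 at h
    rw [mem_symSpace] at hs ht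
    have h1 := congrArg star h
    rw [star_add, star_mul, hs, ht, hθs, star_zero, mul_neg, hθ] at h1
    have h3 : (2 : D) * s = 0 := by
      calc (2 : D) * s = (s + θ * t) + (s + -(θ * t)) := by rw [two_mul]; abel
        _ = 0 := by rw [h, h1, add_zero]
    have h4 : s = 0 := (mul_eq_zero.mp h3).resolve_left h2
    have h5 : t = 0 := by
      rw [h4, zero_add] at h
      exact (mul_eq_zero.mp h).resolve_left hθ0
    subst h4
    subst h5
    rfl
  · intro x
    refine ⟨⟨⟨(x + star x) / 2, ?_⟩, ⟨θ⁻¹ * ((x - star x) / 2), ?_⟩⟩, ?_⟩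
    · rw [mem_symSpace, div_eq_mul_inv, star_mul, star_add, star_star, star_inv₀]
      have : star (2 : D) = 2 := star_ofNat 2
      rw [this, add_comm (star x) x]
      exact ((Commute.ofNat_left 2 (x + star x)).inv_left₀).eq
    · rw [mem_symSpace, star_mul, div_eq_mul_inv, star_mul, star_sub, star_star, star_inv₀,
        star_inv₀, hθs]
      have h3 : star (2 : D) = 2 := star_ofNat 2
      rw [h3]
      have h4 : (2 : D)⁻¹ * (star x - x) = (star x - x) * 2⁻¹ :=
        ((Commute.ofNat_left 2 (star x - x)).inv_left₀).eq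
      have h5 : ∀ y : D, y * θ⁻¹ = θ⁻¹ * y := fun y =>
        (Commute.inv_right₀ (show Commute y θ from hθ y)).eq
      rw [h4, inv_neg, mul_neg, h5, ← mul_neg, ← neg_mul, neg_sub]
    · rw [pairMap_apply]
      change (x + star x) / 2 + θ * (θ⁻¹ * ((x - star x) / 2)) = x
      rw [mul_inv_cancel_left₀ hθ0, ← add_div, add_add_sub_cancel, ← two_mul, mul_div_assoc,
        ((Commute.ofNat_left 2 (x / 2)).eq), div_mul_cancel₀ _ h2]

/-- The Schur complement is not zero for most parameters. -/
theorem schur_finite (hst : ∀ (q : k) (x : D), star (q • x) = q • star x) {a b c κ : D} (ha0 : a ≠ 0) (hκ : κ ≠ 0) :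
    {t : k | b - star (c - t • κ) * a⁻¹ * (c - t • κ) = 0}.Finite := by
  have h2 : -(star κ * a⁻¹ * κ) ≠ 0 :=
    neg_ne_zero.mpr (mul_ne_zero (mul_ne_zero (star_ne_zero.mpr hκ) (inv_ne_zero ha0)) hκ)
  refine (finite_quad (b - star c * a⁻¹ * c) (star κ * a⁻¹ * c + star c * a⁻¹ * κ) h2).subset ?_
  intro t ht
  change _ = (0 : D) at ht
  change (b - star c * a⁻¹ * c) + t • (star κ * a⁻¹ * c + star c * a⁻¹ * κ) +
    t ^ 2 • (-(star κ * a⁻¹ * κ)) = 0
  rw [← ht, star_sub, hst]
  simp only [sub_mul, mul_sub, smul_mul_assoc, mul_smul_comm, smul_sub, smul_add, smul_neg, sq,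
    mul_smul]
  abel

/-- The elements for which the pair of hermitian parts determines `z`. -/
def Good (r : D) : Prop := ∀ z : D, star z = -z → z ≠ 0 → z * r ≠ star r * z

variable {ψ : D → A}

/-- The quotient depends only on the hermitian part of `z`. -/
theorem same_re (hst : ∀ (q : k) (x : D), star (q • x) = q • star x) (h20 : (2 : D) ≠ 0)
    (hS : RelE ψ) {θ : D} (hθ0 : θ ≠ 0) (hθs : star θ = -θ) {z z' r : D}
    (hr : Good r) (hz : z + star z ≠ 0) (hzz : z' + star z' = z + star z)
    (hzr : z * r + star (z * r) ≠ 0) (hzr' : z' * r + star (z' * r) ≠ 0) :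
    ψ (z * r) * (ψ z)⁻¹ = ψ (z' * r) * (ψ z')⁻¹ := by
  have hr0 : r ≠ 0 := by
    rintro rfl
    exact hzr (by simp)
  have hrs0 : star r ≠ 0 := star_ne_zero.mpr hr0
  obtain ⟨a, ha⟩ : ∃ a, a = z + star z := ⟨_, rfl⟩
  have has : star a = a := by rw [ha, star_add, star_star, add_comm]
  have ha0 : a ≠ 0 := by rw [ha]; exact hz
  obtain ⟨ρ, hρ⟩ : ∃ ρ, ρ = (star r)⁻¹ := ⟨_, rfl⟩
  have hρ0 : ρ ≠ 0 := by rw [hρ]; exact inv_ne_zero hrs0
  have hrρ : star r * ρ = 1 := by rw [hρ, mul_inv_cancel₀ hrs0]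
  have hρθ : ρ * θ + star (ρ * θ) ≠ 0 := by
    intro h0
    apply hr θ hθs hθ0
    rw [star_mul, hθs, neg_mul, ← sub_eq_add_neg, sub_eq_zero] at h0
    have h1 : star ρ * r = 1 := by
      have h2 := congrArg star hrρ
      rwa [star_mul, star_star, star_one] at h2
    calc θ * r = (star r * ρ) * θ * r := by rw [hrρ, one_mul]
      _ = star r * (ρ * θ) * r := by simp only [mul_assoc]
      _ = star r * (θ * star ρ) * r := by rw [h0]
      _ = star r * θ * (star ρ * r) := by simp only [mul_assoc]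
      _ = star r * θ := by rw [h1, mul_one]
  -- the parameter
  obtain ⟨w, hw⟩ : ∃ w : D, w = ρ * ((2 : D)⁻¹ * a) := ⟨_, rfl⟩
  have hhalf : (2 : D)⁻¹ * a + star ((2 : D)⁻¹ * a) = a := by
    have h2 : star (2 : D) = 2 := star_ofNat 2
    have hc : Commute (2 : D)⁻¹ a := (Commute.ofNat_left 2 a).inv_left₀
    rw [star_mul, has, star_inv₀, h2, ← hc.eq, ← add_mul, ← two_mul, mul_inv_cancel₀ h20,
      one_mul]
  have hκ0 : ρ * θ ≠ 0 := mul_ne_zero hρ0 hθ0
  have f1 := finite_lin (k := k) (w + star w) hρθ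
  have f2 := finite_lin (k := k) (w - (star z + z * r)) hκ0
  have f3 := finite_lin (k := k) (w - (star z' + z' * r)) hκ0
  have f4 := schur_finite hst (b := z * r + star (z * r)) (c := star z + z * r - w) ha0 hκ0
  have f5 := schur_finite hst (b := z' * r + star (z' * r)) (c := star z' + z' * r - w) ha0 hκ0
  obtain ⟨t, ht⟩ := ((((f1.union f2).union f3).union f4).union f5).infinite_compl.nonempty
  simp only [Set.mem_compl_iff, Set.mem_union, not_or] at ht
  obtain ⟨⟨⟨⟨h1, h2⟩, h3⟩, h4⟩, h5⟩ := ht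
  obtain ⟨z₂, hz₂⟩ : ∃ z₂ : D, z₂ = w + t • (ρ * θ) := ⟨_, rfl⟩
  have e1 : z₂ + star z₂ ≠ 0 := by
    intro h0
    apply h1
    change (w + star w) + t • (ρ * θ + star (ρ * θ)) = 0
    rw [← h0, hz₂, star_add, hst, smul_add]
    abel
  have e2 : star r * z₂ + star (star r * z₂) = a := by
    have e3 : star r * z₂ = (2 : D)⁻¹ * a + t • θ := by
      rw [hz₂, hw, mul_add, mul_smul_comm, ← mul_assoc, ← mul_assoc (star r) ρ θ, hrρ, one_mul,
        one_mul]
    rw [e3, star_add, hst, hθs, smul_neg]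
    calc (2 : D)⁻¹ * a + t • θ + (star ((2 : D)⁻¹ * a) + -(t • θ))
        = (2 : D)⁻¹ * a + star ((2 : D)⁻¹ * a) := by abel
      _ = a := hhalf
  have key : ∀ y : D, y + star y = a → y * r + star (y * r) ≠ 0 →
      t ∉ {t : k | w - (star y + y * r) + t • (ρ * θ) = 0} →
      t ∉ {t : k | y * r + star (y * r) - star (star y + y * r - w - t • (ρ * θ)) * a⁻¹ *
        (star y + y * r - w - t • (ρ * θ)) = 0} →
      ψ (y * r) * (ψ y)⁻¹ = ψ z₂ * (ψ (star r * z₂))⁻¹ := by
    intro y hy hyr h6 h7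
    have e4 : star y + y * r - z₂ = star y + y * r - w - t • (ρ * θ) := by rw [hz₂]; abel
    have h := hS y z₂ r (by rw [hy]; exact ha0) hyr e1 (by rw [e2]; exact ha0)
      (by
        intro h0
        apply h6
        change w - (star y + y * r) + t • (ρ * θ) = 0
        rw [← neg_eq_zero, ← h0, hz₂]
        abel)
      (by rw [hy, e4]; exact h7)
      (Or.inl ⟨1, one_ne_zero, by rw [e2, hy, star_one, mul_one, one_mul]⟩)
    rw [mul_inv_eq_iff_eq_mul, mul_assoc, mul_comm _ (ψ y), ← mul_assoc, mul_comm (ψ z₂), h,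
      mul_inv_cancel_right]
  rw [key z ha.symm hzr h2 h4, key z' (by rw [hzz, ha]) hzr' h3 h5]

/-- The quotient depends only on the hermitian part of `z r`. -/
theorem same_re' (hst : ∀ (q : k) (x : D), star (q • x) = q • star x) (h20 : (2 : D) ≠ 0)
    (hS : RelE ψ) {θ : D} (hθ0 : θ ≠ 0) (hθs : star θ = -θ) {z z' r : D}
    (hr : Good r) (hz : z + star z ≠ 0) (hz' : z' + star z' ≠ 0)
    (hzz : z' * r + star (z' * r) = z * r + star (z * r))
    (hzr : z * r + star (z * r) ≠ 0) :
    ψ (z * r) * (ψ z)⁻¹ = ψ (z' * r) * (ψ z')⁻¹ := by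
  have hr0 : r ≠ 0 := by
    rintro rfl
    exact hzr (by simp)
  have hrs0 : star r ≠ 0 := star_ne_zero.mpr hr0
  obtain ⟨a, ha⟩ : ∃ a, a = z * r + star (z * r) := ⟨_, rfl⟩
  have has : star a = a := by rw [ha, star_add, star_star, add_comm]
  have ha0 : a ≠ 0 := by rw [ha]; exact hzr
  have hρθ : star r * θ + star (star r * θ) ≠ 0 := by
    intro h0
    apply hr θ hθs hθ0
    rw [star_mul, hθs, star_star, neg_mul, ← sub_eq_add_neg, sub_eq_zero] at h0
    exact h0.symm
  obtain ⟨w, hw⟩ : ∃ w : D, w = (2 : D)⁻¹ * a := ⟨_, rfl⟩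
  have hhalf : w + star w = a := by
    have h2 : star (2 : D) = 2 := star_ofNat 2
    have hc : Commute (2 : D)⁻¹ a := (Commute.ofNat_left 2 a).inv_left₀
    rw [hw, star_mul, has, star_inv₀, h2, ← hc.eq, ← add_mul, ← two_mul,
      mul_inv_cancel₀ h20, one_mul]
  have f1 := finite_lin (k := k) (star r * w + star (star r * w)) hρθ
  have f2 := finite_lin (k := k) (w - (star z + z * r)) hθ0
  have f3 := finite_lin (k := k) (w - (star z' + z' * r)) hθ0
  have f4 := schur_finite hst (a := z + star z) (b := z * r + star (z * r))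
    (c := star z + z * r - w) hz hθ0
  have f5 := schur_finite hst (a := z' + star z') (b := z' * r + star (z' * r))
    (c := star z' + z' * r - w) hz' hθ0
  obtain ⟨t, ht⟩ := ((((f1.union f2).union f3).union f4).union f5).infinite_compl.nonempty
  simp only [Set.mem_compl_iff, Set.mem_union, not_or] at ht
  obtain ⟨⟨⟨⟨h1, h2⟩, h3⟩, h4⟩, h5⟩ := ht
  obtain ⟨z₂, hz₂⟩ : ∃ z₂ : D, z₂ = w + t • θ := ⟨_, rfl⟩
  have e1 : star r * z₂ + star (star r * z₂) ≠ 0 := by
    intro h0
    apply h1
    change (star r * w + star (star r * w)) + t • (star r * θ + star (star r * θ)) = 0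
    rw [← h0, hz₂, mul_add, star_add, mul_smul_comm, hst, smul_add]
    abel
  have e2 : z₂ + star z₂ = a := by
    rw [hz₂, star_add, hst, hθs, smul_neg]
    calc w + t • θ + (star w + -(t • θ)) = w + star w := by abel
      _ = a := hhalf
  have key : ∀ y : D, y + star y ≠ 0 → y * r + star (y * r) = a →
      t ∉ {t : k | w - (star y + y * r) + t • θ = 0} →
      t ∉ {t : k | y * r + star (y * r) - star (star y + y * r - w - t • θ) * (y + star y)⁻¹ *
        (star y + y * r - w - t • θ) = 0} →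
      ψ (y * r) * (ψ y)⁻¹ = ψ z₂ * (ψ (star r * z₂))⁻¹ := by
    intro y hy hyr h6 h7
    have e4 : star y + y * r - z₂ = star y + y * r - w - t • θ := by rw [hz₂]; abel
    have h := hS y z₂ r hy (by rw [hyr]; exact ha0) (by rw [e2]; exact ha0) e1
      (by
        intro h0
        apply h6
        change w - (star y + y * r) + t • θ = 0
        rw [← neg_eq_zero, ← h0, hz₂]
        abel)
      (by rw [e4]; exact h7)
      (Or.inr ⟨1, one_ne_zero, by rw [e2, hyr, star_one, mul_one, one_mul]⟩)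
    rw [mul_inv_eq_iff_eq_mul, mul_assoc, mul_comm _ (ψ y), ← mul_assoc, mul_comm (ψ z₂), h,
      mul_inv_cancel_right]
  rw [key z hz ha.symm h2 h4, key z' hz' (by rw [hzz, ha]) h3 h5]

/-- For a good element, the pair of hermitian parts can be prescribed. -/
theorem exists_pair_re [FiniteDimensional k D]
    (hst : ∀ (q : k) (x : D), star (q • x) = q • star x) (h20 : (2 : D) ≠ 0) {θ : D} (hθ0 : θ ≠ 0)
    (hθ : ∀ x, x * θ = θ * x) (hθs : star θ = -θ) {r : D} (hr : Good r) {a b : D}
    (ha : star a = a) (hb : star b = b) : ∃ u : D, u + star u = a ∧ u * r + star (u * r) = b := by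
  let L : D →ₗ[k] (symSpace hst × symSpace hst) :=
    { toFun := fun u => (⟨u + star u, by
          rw [mem_symSpace, star_add, star_star, add_comm]⟩,
        ⟨u * r + star (u * r), by rw [mem_symSpace, star_add, star_star, add_comm]⟩)
      map_add' := fun u v => by
        ext
        · change u + v + star (u + v) = (u + star u) + (v + star v)
          rw [star_add]
          abel
        · change (u + v) * r + star ((u + v) * r) = (u * r + star (u * r)) + (v * r + star (v * r))
          rw [add_mul, star_add]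
          abel
      map_smul' := fun q u => by
        ext
        · change q • u + star (q • u) = q • (u + star u)
          rw [hst, smul_add]
        · change (q • u) * r + star ((q • u) * r) = q • (u * r + star (u * r))
          rw [smul_mul_assoc, hst, smul_add] }
  have hinj : Function.Injective L := by
    rw [← LinearMap.ker_eq_bot, LinearMap.ker_eq_bot']
    intro u hu
    have h1 : u + star u = 0 := congrArg (fun x => ((x.1 : symSpace hst) : D)) hu
    have h2 : u * r + star (u * r) = 0 := congrArg (fun x => ((x.2 : symSpace hst) : D)) hu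
    have h3 : star u = -u := (neg_eq_of_add_eq_zero_right h1).symm
    by_contra hu0
    apply hr u h3 hu0
    rw [star_mul, h3, mul_neg, ← sub_eq_add_neg, sub_eq_zero] at h2
    exact h2
  have hsurj := (LinearMap.injective_iff_surjective_of_finrank_eq_finrank
    (finrank_pair hst h20 hθ0 hθ hθs).symm).mp hinj
  obtain ⟨u, hu⟩ := hsurj (⟨a, ha⟩, ⟨b, hb⟩)
  exact ⟨u, congrArg (fun x => ((x.1 : symSpace hst) : D)) hu,
    congrArg (fun x => ((x.2 : symSpace hst) : D)) hu⟩

/-- Lemma B for good elements. -/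
theorem lemB_good [FiniteDimensional k D]
    (hst : ∀ (q : k) (x : D), star (q • x) = q • star x) (h20 : (2 : D) ≠ 0) (hS : RelE ψ) {θ : D} (hθ0 : θ ≠ 0)
    (hθ : ∀ x, x * θ = θ * x) (hθs : star θ = -θ) {z z' r : D} (hr : Good r)
    (hz : z + star z ≠ 0) (hz' : z' + star z' ≠ 0) (hzr : z * r + star (z * r) ≠ 0)
    (hzr' : z' * r + star (z' * r) ≠ 0) :
    ψ (z * r) * (ψ z)⁻¹ = ψ (z' * r) * (ψ z')⁻¹ := by
  obtain ⟨u, hu1, hu2⟩ := exists_pair_re hst h20 hθ0 hθ hθs hr (a := z + star z)
    (b := z' * r + star (z' * r)) (by rw [star_add, star_star, add_comm])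
    (by rw [star_add, star_star, add_comm])
  rw [same_re hst h20 hS hθ0 hθs hr hz hu1 hzr (by rw [hu2]; exact hzr'),
    same_re' hst h20 hS hθ0 hθs hr hz' (by rw [hu1]; exact hz) hu2 hzr']

end same

section all

variable {k K D Ω : Type} [Field k] [Infinite k] [Field K] [StarRing K] [DivisionRing D]
  [StarRing D] [Algebra k K] [Algebra k D] [Algebra K D] [IsScalarTower k K D]
  [FiniteDimensional k D] [Field Ω] [Algebra K Ω] {n : ℕ} {A : Type} [CommGroup A] {ψ : D → A}

omit [Infinite k] [FiniteDimensional k D] [Field Ω] [Algebra K Ω] [CommGroup A] in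
/-- The elements of `k` are fixed. -/
theorem star_smul_of (hk : ∀ c : k, star (algebraMap k K c) = algebraMap k K c)
    (hss : ∀ c : K, star (algebraMap K D c) = algebraMap K D (star c)) (q : k) (x : D) :
    star (q • x) = q • star x := by
  rw [Algebra.smul_def, Algebra.smul_def, star_mul, IsScalarTower.algebraMap_apply k K D, hss, hk,
    ← IsScalarTower.algebraMap_apply k K D, Algebra.commutes]

/-- **Lemma B.** -/
theorem lemB (hk : ∀ c : k, star (algebraMap k K c) = algebraMap k K c)
    (hss : ∀ c : K, star (algebraMap K D c) = algebraMap K D (star c)) (h2 : (2 : k) ≠ 0)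
    (hK : ∃ c : K, star c ≠ c) (hn : 0 < n)
    (f : D →ₐ[K] Matrix (Fin n) (Fin n) Ω) (hS : RelE ψ) {z z' r : D}
    (hz : z + star z ≠ 0) (hz' : z' + star z' ≠ 0) (hzr : z * r + star (z * r) ≠ 0)
    (hzr' : z' * r + star (z' * r) ≠ 0) :
    ψ (z * r) * (ψ z)⁻¹ = ψ (z' * r) * (ψ z')⁻¹ := by
  have hst := star_smul_of (D := D) hk hss
  have h2K : (2 : K) ≠ 0 := by
    have h := (_root_.map_ne_zero (algebraMap k K)).2 h2
    rwa [map_ofNat] at h
  have h20 : (2 : D) ≠ 0 := by
    have h := (_root_.map_ne_zero (algebraMap K D)).2 h2K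
    rwa [map_ofNat] at h
  have h2Ω : (2 : Ω) ≠ 0 := by
    have h := (_root_.map_ne_zero (algebraMap K Ω)).2 h2K
    rwa [map_ofNat] at h
  obtain ⟨k0, hk0⟩ := hK
  obtain ⟨η, hη⟩ : ∃ η, η = k0 - star k0 := ⟨_, rfl⟩
  have hη0 : η ≠ 0 := by rw [hη]; exact sub_ne_zero.mpr (Ne.symm hk0)
  have hηs : star η = -η := by rw [hη, star_sub, star_star, neg_sub]
  obtain ⟨θ, hθd⟩ : ∃ θ, θ = algebraMap K D η := ⟨_, rfl⟩
  have hθ0 : θ ≠ 0 := by rw [hθd]; exact (_root_.map_ne_zero _).mpr hη0
  have hθ : ∀ x, x * θ = θ * x := by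
    intro x
    rw [hθd]
    exact (Algebra.commutes _ x).symm
  have hθs : star θ = -θ := by rw [hθd, hss, hηs, map_neg]
  have hr0 : r ≠ 0 := by
    rintro rfl
    exact hzr (by simp)
  -- the determinants
  obtain ⟨N, hN⟩ : ∃ N : D → Ω, ∀ x, N x = (f x).det := ⟨_, fun _ => rfl⟩
  have hNm : ∀ x y, N (x * y) = N x * N y := by
    intro x y
    rw [hN, hN, hN, map_mul, Matrix.det_mul]
  have hN0 : ∀ x, x ≠ 0 → N x ≠ 0 := by
    intro x hx
    rw [hN]
    exact (((Matrix.isUnit_iff_isUnit_det _).mp ((isUnit_iff_ne_zero.mpr hx).map f))).ne_zero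
  have hNK : ∀ c : K, N (algebraMap K D c) = (algebraMap K Ω c) ^ n := by
    intro c
    rw [hN, AlgHom.commutes, Matrix.algebraMap_eq_diagonal, Matrix.det_diagonal]
    simp
  -- the polynomial
  obtain ⟨p, hp⟩ : ∃ p : Polynomial Ω, p = (X - C (algebraMap K Ω η)) ^ n * C (N r) -
      (X + C (algebraMap K Ω η)) ^ n * C (N (star r)) := ⟨_, rfl⟩
  have hηΩ : algebraMap K Ω η ≠ 0 := (_root_.map_ne_zero _).mpr hη0
  have hp0 : p ≠ 0 := by
    intro h0
    have h1 : p.eval (algebraMap K Ω η) = 0 := by rw [h0, eval_zero]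
    rw [hp] at h1
    simp only [eval_sub, eval_mul, eval_pow, eval_X, eval_C, eval_add, sub_self] at h1
    rw [zero_pow hn.ne', zero_mul, zero_sub, neg_eq_zero] at h1
    refine mul_ne_zero (pow_ne_zero _ ?_) (hN0 _ (star_ne_zero.mpr hr0)) h1
    rw [← two_mul]
    exact mul_ne_zero h2Ω hηΩ
  have f1 : {t : k | p.eval (algebraMap K Ω (algebraMap k K t)) = 0}.Finite := by
    have h1 := Polynomial.finite_setOfPred_isRoot hp0
    have h3 : Function.Injective fun t : k => algebraMap K Ω (algebraMap k K t) :=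
      (algebraMap K Ω).injective.comp (algebraMap k K).injective
    exact h1.preimage h3.injOn
  have f2 : {t : k | (z * θ + star (z * θ)) + t • (z + star z) = 0}.Finite := finite_lin _ hz
  have f3 : {t : k | (z' * θ + star (z' * θ)) + t • (z' + star z') = 0}.Finite :=
    finite_lin _ hz'
  obtain ⟨t, ht⟩ := ((f1.union f2).union f3).infinite_compl.nonempty
  simp only [Set.mem_compl_iff, Set.mem_union, not_or] at ht
  obtain ⟨⟨h1, h3⟩, h4⟩ := ht
  -- the factor
  obtain ⟨c, hc⟩ : ∃ c : K, c = algebraMap k K t + η := ⟨_, rfl⟩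
  have hcs : star c = algebraMap k K t - η := by rw [hc, star_add, hk, hηs, sub_eq_add_neg]
  have hcne : c ≠ star c := by
    intro h0
    rw [hcs, hc] at h0
    apply hη0
    have h4 : (2 : K) * η = 0 := by linear_combination h0
    exact (mul_eq_zero.mp h4).resolve_left h2K
  have hc0 : c ≠ 0 := by
    intro h0
    apply hcne
    rw [h0, star_zero]
  have hcs0 : star c ≠ 0 := star_ne_zero.mpr hc0
  obtain ⟨γ, hγ⟩ : ∃ γ, γ = algebraMap K D c := ⟨_, rfl⟩
  have hγ0 : γ ≠ 0 := by rw [hγ]; exact (_root_.map_ne_zero _).mpr hc0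
  have hγc : ∀ x, x * γ = γ * x := by
    intro x
    rw [hγ]
    exact (Algebra.commutes _ x).symm
  have hγs : star γ = algebraMap K D (star c) := by rw [hγ, hss]
  have hγt : ∀ y : D, y * γ = y * θ + t • y := by
    intro y
    rw [hγ, hc, map_add, mul_add, ← hθd, add_comm, ← IsScalarTower.algebraMap_apply k K D]
    congr 1
    rw [Algebra.smul_def]
    exact (Algebra.commutes _ y).symm
  have g1 : Good γ := by
    intro x _ hx0 h0
    rw [hγs, hγc] at h0
    have h4 := mul_right_cancel₀ hx0 h0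
    rw [hγ] at h4
    exact hcne ((algebraMap K D).injective h4)
  have g2 : Good (γ⁻¹ * r) := by
    intro x _ hx0 h0
    have h4 := congrArg N h0
    rw [star_mul, hNm, hNm, hNm, hNm, star_inv₀, hγs, hγ] at h4
    rw [← map_inv₀, ← map_inv₀, hNK, hNK] at h4
    have h5 : (algebraMap K Ω (star c)) ^ n * N r = (algebraMap K Ω c) ^ n * N (star r) := by
      have h6 : (algebraMap K Ω c) ≠ 0 := (_root_.map_ne_zero _).mpr hc0
      have h7 : (algebraMap K Ω (star c)) ≠ 0 := (_root_.map_ne_zero _).mpr hcs0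
      have h8 := hN0 x hx0
      rw [map_inv₀, map_inv₀, inv_pow, inv_pow] at h4
      field_simp at h4
      linear_combination h4
    apply h1
    change p.eval (algebraMap K Ω (algebraMap k K t)) = 0
    rw [hp]
    simp only [eval_sub, eval_mul, eval_pow, eval_X, eval_C, eval_add]
    rw [hcs, hc] at h5
    simp only [map_sub, map_add] at h5
    linear_combination h5
  have k1 : ∀ y : D, t ∉ {t : k | (y * θ + star (y * θ)) + t • (y + star y) = 0} →
      y * γ + star (y * γ) ≠ 0 := by
    intro y h4 h0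
    apply h4
    change (y * θ + star (y * θ)) + t • (y + star y) = 0
    rw [← h0, hγt, star_add, hst, smul_add]
    abel
  have e1 : ∀ y : D, (y * γ) * (γ⁻¹ * r) = y * r := by
    intro y
    rw [mul_assoc, mul_inv_cancel_left₀ hγ0]
  have l1 := lemB_good hst h20 hS hθ0 hθ hθs g1 hz hz' (k1 z h3) (k1 z' h4)
  have l2 := lemB_good hst h20 hS hθ0 hθ hθs g2 (k1 z h3) (k1 z' h4) (by rw [e1]; exact hzr)
    (by rw [e1]; exact hzr')
  rw [e1, e1] at l2
  calc ψ (z * r) * (ψ z)⁻¹ = (ψ (z * r) * (ψ (z * γ))⁻¹) * (ψ (z * γ) * (ψ z)⁻¹) := by group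
    _ = (ψ (z' * r) * (ψ (z' * γ))⁻¹) * (ψ (z' * γ) * (ψ z')⁻¹) := by rw [l1, l2]
    _ = _ := by group

end all

end Vale.Agent.P011.H948.R3
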