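import Mathlib

/-!
The extension of the classes of quasi-reflections to a homomorphism: the only condition is that
the hermitian parts do not vanish. Any infinite field of central elements fixed by the involution,
characteristic not two.
-/

set_option linter.unusedSectionVars false

namespace Vale.Agent.P011.H948.R3

section

variable {k D : Type} [Field k] [DivisionRing D] [StarRing D] [Algebra k D]

/-- The elements `x` such that `g * x` is skew. -/
def skewSpace (hst : ∀ (q : k) (x : D), star (q • x) = q • star x) (g : D) : Submodule k D where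
  carrier := {x | g * x + star (g * x) = 0}
  add_mem' := by
    intro a b ha hb
    change g * (a + b) + star (g * (a + b)) = 0
    rw [mul_add, star_add, add_add_add_comm, show g * a + star (g * a) = 0 from ha,
      show g * b + star (g * b) = 0 from hb, add_zero]
  zero_mem' := by
    change g * 0 + star (g * 0) = 0
    rw [mul_zero, star_zero, add_zero]
  smul_mem' := by
    intro q x hx
    change g * (q • x) + star (g * (q • x)) = 0
    rw [mul_smul_comm, hst, ← smul_add, show g * x + star (g * x) = 0 from hx, smul_zero]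

theorem skewSpace_ne_top (hst : ∀ (q : k) (x : D), star (q • x) = q • star x)
    (h2 : (2 : D) ≠ 0) {g : D} (hg : g ≠ 0) : skewSpace hst g ≠ ⊤ := by
  intro h
  have h1 : g⁻¹ ∈ skewSpace hst g := by rw [h]; exact Submodule.mem_top
  have h3 : g * g⁻¹ + star (g * g⁻¹) = 0 := h1
  rw [mul_inv_cancel₀ hg, star_one, one_add_one_eq_two] at h3
  exact h2 h3

/-- A generic element. -/
theorem exists_generic [Infinite k] (hst : ∀ (q : k) (x : D), star (q • x) = q • star x)
    (h2 : (2 : D) ≠ 0) (S : Finset D) (hS : ∀ g ∈ S, g ≠ 0) :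
    ∃ x : D, ∀ g ∈ S, g * x + star (g * x) ≠ 0 := by
  classical
  have h := Subspace.biUnion_ne_univ_of_top_notMem (k := k) (E := D)
    (s := S.image (skewSpace hst)) (by
      intro h
      obtain ⟨g, hg, h1⟩ := Finset.mem_image.mp h
      exact skewSpace_ne_top hst h2 (hS g hg) h1)
  obtain ⟨x, hx⟩ := (Set.ne_univ_iff_exists_notMem _).mp h
  refine ⟨x, fun g hg h0 => hx ?_⟩
  rw [Set.mem_iUnion₂]
  exact ⟨skewSpace hst g, Finset.mem_image_of_mem _ hg, h0⟩

variable {A : Type} [CommGroup A]

/-- The extension. -/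
theorem exists_F0_empty [Infinite k] (hst : ∀ (q : k) (x : D), star (q • x) = q • star x)
    (h2 : (2 : D) ≠ 0) (ψ : D → A)
    (hB : ∀ z z' r : D, z + star z ≠ 0 → z' + star z' ≠ 0 → z * r + star (z * r) ≠ 0 →
      z' * r + star (z' * r) ≠ 0 → ψ (z * r) * (ψ z)⁻¹ = ψ (z' * r) * (ψ z')⁻¹)
    (hD : ∀ s : D, star s = s → s ≠ 0 → ψ s = ψ 1) :
    ∃ F0 : D → A, (∀ a b : D, a ≠ 0 → b ≠ 0 → F0 (a * b) = F0 a * F0 b) ∧
      (∀ z : D, z + star z ≠ 0 → F0 z = ψ z * (ψ 1)⁻¹) ∧
      ∀ s : D, s ≠ 0 → star s = s → F0 s = 1 := by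
  classical
  have h1 : (1 : D) + star (1 : D) ≠ 0 := by
    rw [star_one, one_add_one_eq_two]
    exact h2
  have hc : ∀ r : D, r ≠ 0 → ∃ c : D, c + star c ≠ 0 ∧ r * c + star (r * c) ≠ 0 := by
    intro r hr
    obtain ⟨x, hx⟩ := exists_generic hst h2 ({1, r} : Finset D) (by
      intro g hg
      rw [Finset.mem_insert, Finset.mem_singleton] at hg
      rcases hg with rfl | rfl
      · exact one_ne_zero
      · exact hr)
    refine ⟨x, ?_, hx r (by simp)⟩
    have := hx 1 (by simp)
    rwa [one_mul] at this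
  let F0 : D → A := fun r => if hr : r ≠ 0 then
    ψ (r * (hc r hr).choose) * (ψ (hc r hr).choose)⁻¹ else 1
  have hF : ∀ r : D, r ≠ 0 → ∀ c : D, c + star c ≠ 0 → r * c + star (r * c) ≠ 0 →
      F0 r = ψ (r * c) * (ψ c)⁻¹ := by
    intro r hr c hc1 hc2
    obtain ⟨h2, h3⟩ := (hc r hr).choose_spec
    change (if hr : r ≠ 0 then ψ (r * (hc r hr).choose) * (ψ (hc r hr).choose)⁻¹ else 1) = _
    rw [dif_pos hr]
    obtain ⟨c', hc'⟩ : ∃ c', c' = (hc r hr).choose := ⟨_, rfl⟩
    rw [← hc'] at h2 h3 ⊢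
    have hc0 : c ≠ 0 := by
      rintro rfl
      exact hc1 (by simp)
    have h4 := hB (r * c) c (c⁻¹ * c') hc2 hc1
      (by rw [mul_assoc, mul_inv_cancel_left₀ hc0]; exact h3)
      (by rw [mul_inv_cancel_left₀ hc0]; exact h2)
    rw [mul_assoc, mul_inv_cancel_left₀ hc0] at h4
    rw [mul_inv_eq_iff_eq_mul] at h4
    rw [h4, mul_comm (ψ c' * (ψ c)⁻¹), mul_assoc, mul_comm (ψ c'), mul_assoc, mul_inv_cancel,
      mul_one]
  refine ⟨F0, ?_, ?_, ?_⟩
  · intro a b ha hb
    obtain ⟨c, hcS⟩ := exists_generic hst h2 ({1, b, a * b} : Finset D) (by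
      intro g hg
      simp only [Finset.mem_insert, Finset.mem_singleton] at hg
      rcases hg with rfl | rfl | rfl
      · exact one_ne_zero
      · exact hb
      · exact mul_ne_zero ha hb)
    have h2 := hcS 1 (by simp)
    have h3 := hcS b (by simp)
    have h4 := hcS (a * b) (by simp)
    rw [one_mul] at h2
    rw [hF (a * b) (mul_ne_zero ha hb) c h2 h4, hF b hb c h2 h3,
      hF a ha (b * c) h3 (by rw [← mul_assoc]; exact h4), ← mul_assoc]
    group
  · intro z hz
    have hz0 : z ≠ 0 := by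
      rintro rfl
      exact hz (by simp)
    rw [hF z hz0 1 h1 (by rw [mul_one]; exact hz), mul_one]
  · intro s hs hss
    have hz : s + star s ≠ 0 := by
      rw [hss, ← two_mul]
      exact mul_ne_zero h2 hs
    rw [hF s hs 1 h1 (by rw [mul_one]; exact hz), mul_one, hD s hss hs, mul_inv_cancel]

end

end Vale.Agent.P011.H948.R3
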