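import Vale.Agent.P011.H948.R3B
import Vale.Agent.P011.Three.Psi

/-!
The relation for symmetric elements is a consequence of Lemma B, and the extension of the classes
of quasi-reflections. Place-free, characteristic not two.
-/

open Module Matrix

set_option linter.unusedSectionVars false

namespace Vale.Agent.P011.H948.R3

open Vale.Agent.P011S
open Vale.Agent.P011.Three (psi psi_eq psi_line)

section psi

variable {D V : Type} [DivisionRing D] [StarRing D] [AddCommGroup V] [Module D V]
  {H : AForm D V} {A : Type} [CommGroup A] (χ : H.isom →* A)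

theorem psi_of_not {z : D} (h : ¬ ∃ y : V, z + star z = H.h y y) : psi H χ z = 1 := by
  rw [psi, dif_neg h]

theorem psi_conj' (z : D) {c : D} (hc : c ≠ 0) : psi H χ (c * z * star c) = psi H χ z := by
  have hc' : star c ≠ 0 := star_ne_zero.mpr hc
  have e : ∀ c z : D, c * z * star c + star (c * z * star c) = c * (z + star z) * star c := by
    intro c z
    rw [star_mul, star_mul, star_star]
    noncomm_ring
  by_cases h : ∃ y : V, z + star z = H.h y y
  · obtain ⟨y, hy⟩ := h
    have hy' : c * z * star c + star (c * z * star c) = H.h (c • y) (c • y) := by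
      rw [e, hy, H.smul_left, H.smul_right, mul_assoc]
    rw [psi_eq hy, psi_eq hy']
    congr 1
    apply Subtype.ext
    ext v
    rw [H.qr_apply, H.qr_apply, H.smul_right, smul_smul]
    congr 2
    rw [_root_.mul_inv_rev, _root_.mul_inv_rev]
    calc H.h v y * star c * ((star c)⁻¹ * (z⁻¹ * c⁻¹)) * c
        = H.h v y * (star c * (star c)⁻¹) * z⁻¹ * (c⁻¹ * c) := by simp only [mul_assoc]
      _ = _ := by rw [mul_inv_cancel₀ hc', inv_mul_cancel₀ hc, mul_one, mul_one]
  · rw [psi_of_not χ h, psi_of_not]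
    rintro ⟨y, hy⟩
    apply h
    refine ⟨c⁻¹ • y, ?_⟩
    rw [H.smul_left, H.smul_right, ← hy, e]
    rw [star_inv₀]
    calc z + star z = (c⁻¹ * c) * (z + star z) * (star c * (star c)⁻¹) := by
          rw [mul_inv_cancel₀ hc', inv_mul_cancel₀ hc, mul_one, one_mul]
      _ = _ := by simp only [mul_assoc]

end psi

section main

variable {K D : Type} [Field K] [StarRing K] [DivisionRing D] [StarRing D] [Algebra K D]

/-- The symmetric elements, from Lemma B. -/
theorem sym_of_B (hss : ∀ c : K, star (algebraMap K D c) = algebraMap K D (star c))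
    (h2 : (2 : K) ≠ 0) (hK : ∃ c : K, star c ≠ c) {V A : Type} [AddCommGroup V] [Module D V]
    [CommGroup A] {H : AForm D V} (χ : H.isom →* A)
    (hlen : ∀ a : D, star a = a → a ≠ 0 → ∃ y : V, H.h y y = a)
    (hB : ∀ z z' r : D, z + star z ≠ 0 → z' + star z' ≠ 0 → z * r + star (z * r) ≠ 0 →
      z' * r + star (z' * r) ≠ 0 → psi H χ (z * r) * (psi H χ z)⁻¹ =
        psi H χ (z' * r) * (psi H χ z')⁻¹) {s : D} (hs : star s = s) (hs0 : s ≠ 0) :
    psi H χ s = psi H χ 1 := by
  obtain ⟨k0, hk0⟩ := hK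
  have h20 : (2 : D) ≠ 0 := by
    have h := (_root_.map_ne_zero (algebraMap K D)).2 h2
    rwa [map_ofNat] at h
  set θ : K := k0 - star k0 with hθdef
  have hθ0 : θ ≠ 0 := sub_ne_zero.mpr (Ne.symm hk0)
  have hθ : star θ = -θ := by rw [hθdef, star_sub, star_star, neg_sub]
  have hs2 : star (2 : K) = 2 := by
    rw [← one_add_one_eq_two, star_add, star_one]
  have hs4 : star (4 : K) = 4 := by
    have : (4 : K) = 2 + 2 := by norm_num
    rw [this, star_add, hs2]
  have h4 : (4 : K) ≠ 0 := by
    have : (4 : K) = 2 * 2 := by norm_num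
    rw [this]
    exact mul_ne_zero h2 h2
  -- the three parameters
  obtain ⟨a, ha⟩ : ∃ a : K, a = 2⁻¹ + θ := ⟨_, rfl⟩
  obtain ⟨c, hc⟩ : ∃ c : K, c = 2⁻¹ + (4 * θ)⁻¹ := ⟨_, rfl⟩
  have ha1 : a + star a = 1 := by
    rw [ha, star_add, star_inv₀, hs2, hθ]
    field_simp
    ring
  have hc1 : c + star c = 1 := by
    rw [hc, star_add, star_inv₀, star_inv₀, star_mul, hs2, hs4, hθ]
    field_simp
    ring
  have hh1 : (2⁻¹ : K) + star (2⁻¹ : K) = 1 := by
    rw [star_inv₀, hs2]
    field_simp
    ring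
  have ha0 : a ≠ 0 := by
    rintro h
    rw [h, star_zero, add_zero] at ha1
    exact zero_ne_one ha1
  have hc0 : c ≠ 0 := by
    rintro h
    rw [h, star_zero, add_zero] at hc1
    exact zero_ne_one hc1
  have hac : a⁻¹ + 2 - 2 * a⁻¹ = c⁻¹ := by
    have e1 : (c * (4 * θ)) = 2 * θ + 1 := by
      rw [hc]
      field_simp
      ring
    have e2 : a * 2 = 1 + 2 * θ := by
      rw [ha]
      field_simp
    have e3 : c * (2 * θ) = a := by
      apply mul_right_cancel₀ h2
      rw [e2]
      linear_combination e1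
    have e4 : a⁻¹ + 2 - 2 * a⁻¹ = (2 * a - 1) * a⁻¹ := by
      field_simp
      ring
    have e5 : 2 * a - 1 = 2 * θ := by linear_combination e2
    rw [e4, e5, ← e3]
    field_simp
  have h11 : (1 : D) + star (1 : D) ≠ 0 := by
    rw [star_one, one_add_one_eq_two]
    exact h20
  have hre : ∀ (s : D) (b : K), star s = s → b + star b = 1 →
      s * algebraMap K D b + star (s * algebraMap K D b) = s := by
    intro s b hs hb
    rw [star_mul, hs, hss, Algebra.commutes (star b) s, ← mul_add,
      ← map_add, hb, map_one, mul_one]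
  have hss0 : s + star s ≠ 0 := by
    rw [hs, ← two_mul]
    exact mul_ne_zero h20 hs0
  -- the value on the products
  have hval : ∀ b : K, b + star b = 1 → psi H χ (s * algebraMap K D b) =
      psi H χ s * (psi H χ 1)⁻¹ * psi H χ (algebraMap K D b) := by
    intro b hb
    have h := hB s 1 (algebraMap K D b) hss0 h11 (by rw [hre s b hs hb]; exact hs0) (by
      rw [hre 1 b (star_one D) hb]; exact one_ne_zero)
    rw [one_mul, mul_inv_eq_iff_eq_mul] at h
    rw [h, mul_comm (psi H χ s * _), mul_comm (psi H χ s) (psi H χ 1)⁻¹, mul_assoc]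
  -- the relation on the lines
  have hline : ∀ t : D, star t = t → t ≠ 0 →
      psi H χ (t * algebraMap K D a) * psi H χ (t * algebraMap K D 2⁻¹) =
        psi H χ (t * algebraMap K D c) := by
    intro t ht ht0
    obtain ⟨y, hy⟩ := hlen t ht ht0
    refine psi_line (y := y) (by rw [hre t a ht ha1, hy]) (by rw [hre t _ ht hh1, hy])
      (by rw [hre t c ht hc1, hy]) ?_
    rw [hy, _root_.mul_inv_rev, _root_.mul_inv_rev, _root_.mul_inv_rev, ← map_inv₀, ← map_inv₀,
      ← map_inv₀, inv_inv, ← hac, map_sub, map_add, map_mul]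
    have e : algebraMap K D 2 * t⁻¹ * t * (algebraMap K D a⁻¹ * t⁻¹) =
        algebraMap K D 2 * algebraMap K D a⁻¹ * t⁻¹ := by
      rw [mul_assoc (algebraMap K D 2) t⁻¹ t, inv_mul_cancel₀ ht0, mul_one, mul_assoc]
    rw [e, sub_mul, add_mul]
  have h3 := hline s hs hs0
  have h4 := hline 1 (star_one D) one_ne_zero
  rw [one_mul, one_mul, one_mul] at h4
  rw [hval a ha1, hval _ hh1, hval c hc1, ← h4] at h3
  have h5 : psi H χ s * (psi H χ 1)⁻¹ = 1 := by
    have h6 : ∀ q x y : A, q * x * (q * y) = q * (x * y) → q = 1 := by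
      intro q x y h
      have h7 : q * (q * (x * y)) = q * (x * y) := by
        calc q * (q * (x * y)) = q * x * (q * y) := by rw [mul_mul_mul_comm q x q y, mul_assoc]
          _ = q * (x * y) := h
      exact mul_eq_right.mp (mul_left_cancel h7)
    exact h6 _ _ _ h3
  exact mul_inv_eq_one.mp h5

end main

section ext

variable {k K D Ω : Type} [Field k] [Infinite k] [Field K] [StarRing K] [DivisionRing D]
  [StarRing D] [Algebra k K] [Algebra k D] [Algebra K D] [IsScalarTower k K D]
  [FiniteDimensional k D] [Field Ω] [Algebra K Ω] {n : ℕ}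

/-- The extension property of a character of the isometry group. -/
def HasF0 {D V A : Type} [DivisionRing D] [StarRing D] [AddCommGroup V] [Module D V]
    [CommGroup A] {H : AForm D V} (χ : H.isom →* A) : Prop :=
  ∃ F0 : D → A, (∀ a b : D, a ≠ 0 → b ≠ 0 → F0 (a * b) = F0 a * F0 b) ∧
    (∀ s : D, s ≠ 0 → star s = s → F0 s = 1) ∧
    (∀ t : D, t * star t = 1 → 1 + t ≠ 0 →
      F0 (1 + t)⁻¹ = psi H χ (1 + t)⁻¹ * (psi H χ 1)⁻¹) ∧
    psi H χ (1 + 1)⁻¹ = psi H χ 1

/-- The extension, from the exchange relation. -/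
theorem hasF0_of_relE (hk : ∀ c : k, star (algebraMap k K c) = algebraMap k K c)
    (hss : ∀ c : K, star (algebraMap K D c) = algebraMap K D (star c)) (h2 : (2 : k) ≠ 0)
    (hK : ∃ c : K, star c ≠ c) (hn : 0 < n) (f : D →ₐ[K] Matrix (Fin n) (Fin n) Ω)
    {V A : Type} [AddCommGroup V] [Module D V] [CommGroup A] {H : AForm D V} (χ : H.isom →* A)
    (hlen : ∀ a : D, star a = a → a ≠ 0 → ∃ y : V, H.h y y = a) (hS : RelE (psi H χ)) :
    HasF0 χ := by
  have h2K : (2 : K) ≠ 0 := by
    have h := (_root_.map_ne_zero (algebraMap k K)).2 h2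
    rwa [map_ofNat] at h
  have h20 : (2 : D) ≠ 0 := by
    have h := (_root_.map_ne_zero (algebraMap K D)).2 h2K
    rwa [map_ofNat] at h
  have hB : ∀ z z' r : D, z + star z ≠ 0 → z' + star z' ≠ 0 → z * r + star (z * r) ≠ 0 →
      z' * r + star (z' * r) ≠ 0 → psi H χ (z * r) * (psi H χ z)⁻¹ =
        psi H χ (z' * r) * (psi H χ z')⁻¹ :=
    fun z z' r hz hz' hzr hzr' => lemB hk hss h2 hK hn f hS hz hz' hzr hzr'
  have hD : ∀ s : D, star s = s → s ≠ 0 → psi H χ s = psi H χ 1 := fun s hs hs0 =>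
    sym_of_B hss h2K hK χ hlen hB hs hs0
  obtain ⟨F0, h1, h3, h4⟩ := exists_F0_empty (star_smul_of (D := D) hk hss) h20 (psi H χ) hB hD
  have h11 : (1 : D) * star (1 : D) = 1 := by rw [star_one, mul_one]
  have hre : ∀ t : D, t * star t = 1 → 1 + t ≠ 0 → (1 + t)⁻¹ + star (1 + t)⁻¹ = 1 := by
    intro t ht ht1
    have hs : 1 + star t ≠ 0 := by
      intro h
      apply ht1
      have := congrArg star h
      rwa [star_add, star_one, star_star, star_zero] at this
    rw [star_inv₀, star_add, star_one]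
    apply mul_left_cancel₀ ht1
    apply mul_right_cancel₀ hs
    have e1 : (1 + t) * ((1 + t)⁻¹ + (1 + star t)⁻¹) * (1 + star t) =
        (1 + t) * (1 + t)⁻¹ * (1 + star t) + (1 + t) * ((1 + star t)⁻¹ * (1 + star t)) := by
      noncomm_ring
    rw [e1, mul_inv_cancel₀ ht1, inv_mul_cancel₀ hs, mul_one, one_mul]
    calc 1 + star t + (1 + t) = 1 + t + star t + 1 := by abel
      _ = 1 + t + star t + t * star t := by rw [ht]
      _ = _ := by noncomm_ring
  have h2' : (1 : D) + 1 ≠ 0 := by rw [one_add_one_eq_two]; exact h20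
  refine ⟨F0, h1, h4, fun t ht ht1 => h3 _ (by rw [hre t ht ht1]; exact one_ne_zero), ?_⟩
  refine hD _ ?_ (inv_ne_zero h2')
  rw [star_inv₀, star_add, star_one]

end ext

end Vale.Agent.P011.H948.R3
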