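import Vale.Agent.P011.H948.SubF
import Vale.Agent.P011.H279.PncF
import Vale.Agent.P011.H279.TernF
import Vale.Agent.P011.H167.LandF

/-!
The second step over a global function field: representation of a form of rank one by
`m + w* r⁻¹ w` with `w + w* = r`.
-/

open Module Matrix Polynomial

set_option linter.unusedSectionVars false

namespace Vale.Agent.P011.H948.SB

open Vale.Agent.P011.H738 Vale.Agent.P011.H271 Vale.Agent.P011.H63.FB Vale.Agent.P011.H305
open Vale.Agent.P011.Arith (NF)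
open Vale.Agent.P011.H271.S3 (Ab)
open Vale.Agent.P011.H279.RB (CtrlF pnc_abF ternaryF)

variable {k K D : Type} [Field k] [GFF k] [Field K] [StarRing K]
    [DivisionRing D] [StarRing D] [Algebra k K] [Algebra k D] [Algebra K D] [IsScalarTower k K D]
    {d : kˣ} {s : K} {n : ℕ}

/-- The second step. -/
theorem stepBF (hS : SetF k K D d s) (hn : 2 ≤ n) (hdeg : finrank K D = n ^ 2)
    {Ω : Type} [Field Ω] [IsAlgClosed Ω] [Algebra K Ω] (f : D →ₐ[K] Matrix (Fin n) (Fin n) Ω)
    {m r b₀ : D} (hm : star m = m) (hr : star r = r) (hb₀ : star b₀ = b₀)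
    (hm0 : m ≠ 0) (hr0 : r ≠ 0) (hb0 : b₀ ≠ 0)
    {νr νb a : kˣ} (hνr : (f r).det = algebraMap K Ω (algebraMap k K νr))
    (hνb : (f b₀).det = algebraMap K Ω (algebraMap k K νb)) (ha : νr * νb * a ∈ NF d)
    {V : Set (Place k)} (hV : CtrlF d a V) (hnice : NiceF k n V (m⁻¹ * r)) :
    ∃ w c : D, c ≠ 0 ∧ w + star w = r ∧ m + star w * r⁻¹ * w = c * b₀ * star c := by
  classical
  have hn0 : 0 < n := by omega
  have := hS.fin
  have := hS.cen
  have hfk : FiniteDimensional k D := fin_k hS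
  have h2 : (2 : k) ≠ 0 := hS.two_ne
  obtain ⟨hli, hsplit0⟩ := hnice
  obtain ⟨z, hzd⟩ : ∃ z, z = m⁻¹ * r := ⟨_, rfl⟩
  rw [← hzd] at hli hsplit0
  have hmz : m * z = r := by rw [hzd, mul_inv_cancel_left₀ hm0]
  have hz : star z = m * z * m⁻¹ := by
    rw [hmz, hzd, star_mul, star_inv₀, hm, hr]
  have hz0 : z ≠ 0 := by rw [hzd]; exact mul_ne_zero (inv_ne_zero hm0) hr0
  obtain ⟨νm, hνm⟩ := H167.Lf.exists_nrd_unit hS hdeg f hm hm0
  -- the field
  obtain ⟨E, _, _, _, _, j, g, hjg, hgen⟩ := H167.Lf.exists_gen (Module.finBasis k D) z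
  obtain ⟨hmn, hmK⟩ := minpoly_map hS hn0 f hm0 hz hli
  have hjinj : Function.Injective j := j.toRingHom.injective
  have hjp : ∀ p : k[X], j (aeval g p) = aeval z p := by
    intro p
    rw [← Polynomial.aeval_algHom_apply, hjg]
  have hgmin : minpoly k g = minpoly k z := by rw [← hjg, minpoly.algHom_eq j hjinj g]
  have hfinE : FiniteDimensional k E := Module.Finite.of_injective j.toLinearMap hjinj
  have hE : finrank k E = n := by
    have h1 : IntermediateField.adjoin k {g} = ⊤ := by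
      rw [eq_top_iff]
      intro l _
      obtain ⟨p, rfl⟩ := hgen l
      exact IntermediateField.algebra_adjoin_le_adjoin k {g} (by
        rw [Algebra.adjoin_singleton_eq_range_aeval]
        exact ⟨p, rfl⟩)
    have h2 : finrank k (IntermediateField.adjoin k {g}) = (minpoly k g).natDegree :=
      IntermediateField.adjoin.finrank (Algebra.IsIntegral.isIntegral g)
    rw [h1, IntermediateField.finrank_top', hgmin, hmn] at h2
    exact h2
  have hstarj : ∀ x : E, star (j x) = m * j x * m⁻¹ := by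
    intro x
    obtain ⟨p, rfl⟩ := hgen x
    rw [hjp]
    exact star_aeval' hS hm0 hz p
  have h2E : (2 : E) ≠ 0 := by
    rw [← map_ofNat (algebraMap k E) 2]
    exact (_root_.map_ne_zero _).mpr h2
  have h4E : (4 : E) ≠ 0 := by
    have e : (4 : E) = 2 * 2 := by norm_num
    rw [e]
    exact mul_ne_zero h2E h2E
  -- the central element
  obtain ⟨S, hSdef⟩ : ∃ S, S = algebraMap K D s := ⟨_, rfl⟩
  have hSc : ∀ x : D, S * x = x * S := fun x => by rw [hSdef]; exact Algebra.commutes s x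
  have hSs : star S = -S := by rw [hSdef, star_algK hS, hS.star_s, map_neg]
  have hSS : S * S = algebraMap k D d := by
    rw [hSdef, ← map_mul, ← pow_two, hS.sq, ← IsScalarTower.algebraMap_apply]
  have hS0 : S ≠ 0 := by
    rw [hSdef]
    exact (_root_.map_ne_zero (algebraMap K D)).mpr hS.s_ne
  have hD2 : (2 : D) ≠ 0 := by
    rw [← map_ofNat (algebraMap k D) 2]
    exact (_root_.map_ne_zero _).mpr h2
  have hSne : S ≠ -S := by
    intro h
    apply hS0
    have h1 : (2 : D) * S = 0 := by rw [two_mul]; nth_rewrite 1 [h]; exact neg_add_cancel S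
    exact (mul_eq_zero.mp h1).resolve_left hD2
  have hdE : ¬ IsSquare (algebraMap k E (d : k)) := by
    rintro ⟨r', hr'⟩
    have h1 : (j r' - S) * (j r' + S) = 0 := by
      have h2 : j r' * j r' = S * S := by
        rw [← map_mul, ← hr', AlgHom.commutes, hSS]
      rw [sub_mul, mul_add, mul_add, h2, hSc (j r')]
      abel
    have h3 : ∀ x : D, (x = S ∨ x = -S) → star x ≠ m * x * m⁻¹ := by
      rintro x (rfl | rfl)
      · rw [hSs, ← hSc, mul_assoc, mul_inv_cancel₀ hm0, mul_one]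
        exact fun h => hSne h.symm
      · rw [star_neg, hSs, neg_neg, mul_neg, ← hSc, neg_mul, mul_assoc, mul_inv_cancel₀ hm0,
          mul_one]
        exact hSne
    rcases mul_eq_zero.mp h1 with h | h
    · exact h3 _ (Or.inl (sub_eq_zero.mp h)) (hstarj r')
    · exact h3 _ (Or.inr (eq_neg_of_add_eq_zero_left h)) (hstarj r')
  have hg0 : g ≠ 0 := by
    rintro rfl
    exact hz0 (by rw [← hjg, map_zero])
  have hplaces : ∀ v : Place k, ∃ w : Place E, Ab w v ∧
      (v ∈ V → ∀ c : Eˣ, (c : E) = g⁻¹ + 4⁻¹ → c ∉ LSF w) := by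
    intro v
    by_cases hv : v ∈ V
    · obtain ⟨w, hw1, hw2⟩ := (hsplit0 v hv E g hE (by rw [hgmin]; exact hmn)
        (by rw [hgmin]; exact minpoly.aeval k z)).2
      exact ⟨w, hw1, fun _ => hw2⟩
    · obtain ⟨w, hw⟩ := H73.Sp.exists_above (E := E) v
      exact ⟨w, hw, fun h => absurd h hv⟩
  choose ab hab hab2 using hplaces
  have hsplit : ∀ v ∈ V, TotSplitF E v := fun v hv =>
    (hsplit0 v hv E g hE (by rw [hgmin]; exact hmn) (by rw [hgmin]; exact minpoly.aeval k z)).1
  have hsep : Algebra.IsSeparable k E := by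
    obtain ⟨v, hv⟩ := hV.nonempty
    exact H73.Sp.isSeparable_of_totSplit (hsplit v hv)
  -- the value to be represented
  have hth0 : g⁻¹ + 4⁻¹ ≠ 0 := by
    intro h0
    have h1 : g = algebraMap k E (-4) := by
      rw [map_neg, map_ofNat]
      field_simp at h0
      linear_combination h0
    have h2 : (minpoly k g).natDegree = 1 := by
      rw [h1, minpoly.eq_X_sub_C]
      exact natDegree_X_sub_C _
    rw [hgmin, hmn] at h2
    omega
  have hnorm : ∀ x : E, (f (j x)).det =
      algebraMap K Ω (algebraMap k K (Algebra.norm k x)) := by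
    intro x
    obtain ⟨p, rfl⟩ := hgen x
    rw [hjp]
    exact det_sub hS hn0 f hm0 hz hli hE hgmin p
  have hkinj : ∀ x y : k, algebraMap K Ω (algebraMap k K x) =
      algebraMap K Ω (algebraMap k K y) → x = y := fun x y h =>
    (algebraMap k K).injective ((algebraMap K Ω).injective h)
  have hνmr : (νm : k) * Algebra.norm k g = νr := by
    apply hkinj
    have h1 : (f (m * z)).det = (f m).det * (f z).det := by rw [map_mul, Matrix.det_mul]
    rw [← hνr, ← hmz, h1, hνm, ← hjg, hnorm, map_mul, map_mul]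
  obtain ⟨al, halN, halb⟩ := pnc_abF (E := E) h2 hdE hV hsplit ab hab
  obtain ⟨y, p, q, hth, hN0⟩ := ternaryF (F := E) h2E (a := incF k E d) hdE al
    (Units.mk0 (g⁻¹ + 4⁻¹) hth0) (fun w hw => by
      obtain ⟨v, hv, rfl⟩ := halb w hw
      exact hab2 v hv _ rfl)
  rw [Units.val_mk0] at hth
  have hincd : ((incF k E d : Eˣ) : E) = algebraMap k E d := rfl
  rw [hincd] at hth hN0
  obtain ⟨Nq, hNq⟩ : ∃ Nq : Eˣ, (Nq : E) = p ^ 2 - algebraMap k E d * q ^ 2 :=
    ⟨Units.mk0 _ hN0, rfl⟩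
  have hNqN : Nq ∈ NF (incF k E d) := ⟨p, q, hNq⟩
  obtain ⟨γ, hγ⟩ : ∃ γ : Eˣ, γ = Units.mk0 g hg0 * al * Nq := ⟨_, rfl⟩
  have hγE : (γ : E) = g * (g⁻¹ + 4⁻¹ - algebraMap k E d * y ^ 2) := by
    rw [hγ, hth, Units.val_mul, Units.val_mul, Units.val_mk0, hNq]
    ring
  -- the element
  obtain ⟨w, hw⟩ : ∃ w, w = r * (2⁻¹ + j y * S) := ⟨_, rfl⟩
  have h2c : ∀ x : D, (2 : D)⁻¹ * x = x * 2⁻¹ := fun x =>
    (Commute.inv_left₀ (Nat.cast_commute 2 x)).eq
  have hrj : r = m * j g := by rw [hjg, hmz]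
  have hjc : ∀ x y : E, j x * j y = j y * j x := fun x y => by
    rw [← map_mul, mul_comm, map_mul]
  have hsw : star w = r * (2⁻¹ - j y * S) := by
    rw [hw, star_mul, star_add, star_mul, hSs, hstarj, hr, star_inv₀, star_ofNat, add_mul,
      neg_mul, neg_mul, mul_sub, ← h2c r, sub_eq_add_neg]
    congr 2
    calc S * (m * j y * m⁻¹) * r = S * (m * j y * (m⁻¹ * r)) := by simp only [mul_assoc]
      _ = S * (m * (j y * j g)) := by rw [← hzd, ← hjg]; simp only [mul_assoc]
      _ = m * (j g * j y) * S := by rw [hSc, hjc y g]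
      _ = r * (j y * S) := by rw [hrj]; simp only [mul_assoc]
  have hww : w + star w = r := by
    rw [hsw, hw, ← mul_add]
    have : (2 : D)⁻¹ + j y * S + (2⁻¹ - j y * S) = 1 := by
      have h3 : (2 : D)⁻¹ + 2⁻¹ = 1 := by rw [← two_mul, mul_inv_cancel₀ hD2]
      rw [← h3]
      abel
    rw [this, mul_one]
  have hval : m + star w * r⁻¹ * w = m * j (γ : E) := by
    have h3 : (2⁻¹ - j y * S) * (2⁻¹ + j y * S) = j (4⁻¹ - algebraMap k E d * y ^ 2) := by
      have h4 : j y * S * (j y * S) = j (algebraMap k E d * y ^ 2) := by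
        rw [map_mul, AlgHom.commutes, ← hSS, pow_two, map_mul]
        calc j y * S * (j y * S) = j y * (S * j y) * S := by simp only [mul_assoc]
          _ = j y * j y * (S * S) := by rw [hSc]; simp only [mul_assoc]
          _ = S * S * (j y * j y) := by rw [hSS, Algebra.commutes]
      have h5 : (2 : D)⁻¹ * 2⁻¹ = j 4⁻¹ := by
        rw [map_inv₀, map_ofNat, ← _root_.mul_inv_rev]
        norm_num
      rw [sub_mul, mul_add, mul_add, h4, h5, map_sub, h2c (j y * S)]
      abel
    have h6 : star w * r⁻¹ * w = r * j (4⁻¹ - algebraMap k E d * y ^ 2) := by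
      rw [hsw, hw, ← h3]
      calc r * (2⁻¹ - j y * S) * r⁻¹ * (r * (2⁻¹ + j y * S))
          = r * (2⁻¹ - j y * S) * (r⁻¹ * r) * (2⁻¹ + j y * S) := by simp only [mul_assoc]
        _ = _ := by rw [inv_mul_cancel₀ hr0, mul_one, mul_assoc]
    rw [h6, hrj, mul_assoc, ← map_mul, hγE]
    have h7 : g * (g⁻¹ + 4⁻¹ - algebraMap k E d * y ^ 2) =
        1 + g * (4⁻¹ - algebraMap k E d * y ^ 2) := by
      field_simp
      ring
    rw [h7, map_add, map_one, mul_add, mul_one]
  -- comparison with `b₀`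
  have hγ0 : j (γ : E) ≠ 0 := (_root_.map_ne_zero j).mpr γ.ne_zero
  have hsym : star (m * j (γ : E)) = m * j (γ : E) := by
    rw [star_mul, hstarj, hm, mul_assoc, inv_mul_cancel₀ hm0, mul_one]
  have hdz : (f (m * j (γ : E))).det =
      algebraMap K Ω (algebraMap k K ((νr * nrmF k E al * nrmF k E Nq : kˣ) : k)) := by
    have h1 : (f (m * j (γ : E))).det = (f m).det * (f (j (γ : E))).det := by
      rw [map_mul, Matrix.det_mul]
    rw [h1, hνm, hnorm, ← map_mul, ← map_mul]
    congr 2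
    rw [hγ, Units.val_mul, Units.val_mul, Units.val_mk0, map_mul, map_mul, ← mul_assoc,
      ← mul_assoc, hνmr, Units.val_mul, Units.val_mul]
    rfl
  obtain ⟨t, ht0, ht⟩ := H167.Lf.landF hS hdeg f hb₀ hsym hb0 (mul_ne_zero hm0 hγ0) hνb hdz (by
    have h1 : νb * (νr * nrmF k E al * nrmF k E Nq) =
        (νr * νb * a) * (nrmF k E al * a) * nrmF k E Nq * (a ^ 2)⁻¹ := by
      have h2 : a * a * (a ^ 2)⁻¹ = 1 := by rw [← pow_two, mul_inv_cancel]
      calc νb * (νr * nrmF k E al * nrmF k E Nq)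
          = νb * (νr * nrmF k E al * nrmF k E Nq) * (a * a * (a ^ 2)⁻¹) := by rw [h2, mul_one]
        _ = _ := by ac_rfl
    rw [h1]
    exact mul_mem (mul_mem (mul_mem ha halN) (H73.Sp.nrm_mem_NF hNqN))
      (inv_mem ⟨(a : k), 0, by simp⟩))
  exact ⟨w, t, ht0, hww, by rw [hval, ht]⟩

end Vale.Agent.P011.H948.SB
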